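import Crest.Agent.R248.Fin

/-! Row 248: consequences of the path object. -/

namespace Crest.Agent.R248
open CategoryTheory CategoryTheory.Limits Opposite
open Crest.GeometryTopology.Coherator Crest.GeometryTopology.Coherator.GlobTheory
open Crest.GeometryTopology.Coherator.GlobTheory.GlobModel
universe u

variable {C : GlobTheory.{u}}

theorem Path.cmp (hg : GenStmt C) {e : C.UnitChoice} {n N k : ℕ} {ι : Type} {X Y : C.GlobModel}
    (Q : Path e N k Y) {i : X ⟶ Y} {a : ι → El X (D n)} {p : ι → El Y (D (n + 1))}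
    (hJ : IsJExt n i a p) (σ₁ σ₂ : Y ⟶ Q.P) (h : i ≫ σ₁ = i ≫ σ₂)
    (hp : ∀ t, BotEq k Q.bot (ap σ₁ (p t)) (ap σ₂ (p t))) {j : ℕ} (hj : j ≤ k)
    {y y' : El Y (D j)} (hy : (gs Y).AreParallel j y y')
    (hs : (gs Y).Step j (ap (σ₂ ≫ Q.top) y) (ap (σ₂ ≫ Q.top) y')) :
    (gs Y).Step j (ap (σ₁ ≫ Q.top) y) (ap (σ₁ ≫ Q.top) y') := by
  have key := hg n ι X Y i a p hJ (fun S y => BotEq k Q.bot (ap σ₁ y) (ap σ₂ y))
    (fun S T o y hy => by
      rw [ap_act, ap_act]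
      exact Q.cong o _ _ hy)
    (fun S b h hb hh y h1 h2 m hm u => by
      rcases glue_cells S b h hb hh u with ⟨v, rfl⟩ | ⟨v, rfl⟩
      · simpa only [ap_act, act_comp] using h1 m hm v
      · simpa only [ap_act, act_comp] using h2 m hm v)
    (fun S x m hm u => by rw [← ap_comp, h, ap_comp]) hp
  have k1 := key _ y j hj (𝟙 _)
  have k2 := key _ y' j hj (𝟙 _)
  simp only [act_id] at k1 k2
  have := (Q.transfer j hj _ _ (map_par (gm σ₂) hy)).1 hs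
  exact (Q.transfer j hj _ _ (map_par (gm σ₁) hy)).2 (by
    change (gs Y).Step j (Q.bot j (ap σ₁ y)) (Q.bot j (ap σ₁ y'))
    rw [k1, k2]; exact this)

theorem IsJExt.ext {n : ℕ} {ι : Type} {X Y Z : C.GlobModel} {i : X ⟶ Y} {a : ι → El X (D n)}
    {p : ι → El Y (D (n + 1))} (hJ : IsJExt n i a p) {f g : Y ⟶ Z} (h : i ≫ f = i ≫ g)
    (hp : ∀ t, ap f (p t) = ap g (p t)) : f = g :=
  (hJ.univ Z (i ≫ g) (fun t => ap g (p t)) (fun t => by
    rw [ap_comp, ← hJ.src]; exact (ap_act g _ _).symm)).unique ⟨h, hp⟩ ⟨rfl, fun _ => rfl⟩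

theorem a_of {e : C.UnitChoice} {n k : ℕ} (hg : GenStmt C) (hP : PathStmt e n k) :
    AStmt e n k := by
  intro ι X Y i a p hX hJ r hr hrp j hj y y' hy hs
  obtain ⟨Q⟩ := hP Y
  obtain ⟨σ, hσ⟩ := hX _ _ Q.top Q.triv i
  choose c c1 c2 c3 using fun t => Q.extA (ap σ (a t)) (p t) (by rw [hJ.src, ← ap_comp, hσ])
  obtain ⟨σ₁, ⟨s1, s2⟩, -⟩ := hJ.univ _ σ c c1
  have e1 : σ₁ ≫ Q.top = 𝟙 Y := hJ.ext (by rw [← Category.assoc, s1, hσ, Category.comp_id])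
    fun t => by rw [ap_comp, s2, c2, ap_id]
  have := Q.cmp hg hJ σ₁ (r ≫ σ) (by rw [s1, ← Category.assoc, hr, Category.id_comp])
    (fun t => by rw [s2, ap_comp, hrp, ap_act]; exact c3 t) hj hy (by
      rw [Category.assoc, hσ]
      exact map_step (gm i) hs)
  rwa [e1] at this

theorem step_par {G : GlobSet.{u}} {j : ℕ} {x y : G.cell j} (h : G.Step j x y) :
    G.AreParallel j x y := by
  obtain ⟨c, rfl, rfl⟩ := h
  exact Pt.par_src_tgt G j c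

theorem m_of {e : C.UnitChoice} {n k : ℕ} (hg : GenStmt C) (hr : GrpStmt C)
    (hP : PathStmt e (n + 1) k) : MStmt C n k := by
  intro X Y Y' i i' u u' γ γ' hX ⟨π, π1, π2⟩ hJ hJ' hc j hj y y' hy
  obtain ⟨F, G, hG, hF, hn, hl⟩ := hr n
  have a1 : (gs Y).tgt n (ap i π) = (gs Y).src n γ :=
    ((gm i).app_tgt n π).symm.trans ((congrArg (ap i) π2).trans (hJ.src ()).symm)
  have a2 : (gs Y').src n (ap i' π) = (gs Y').src n γ' :=
    ((gm i').app_src n π).symm.trans ((congrArg (ap i') π1).trans (hJ'.src ()).symm)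
  obtain ⟨g, ⟨g1, g2⟩, -⟩ := hJ'.univ Y i (fun _ => G Y (ap i π) γ) fun _ =>
    (hG Y _ _ a1).1.trans (((gm i).app_src n π).symm.trans (congrArg (ap i) π1))
  obtain ⟨f, ⟨f1, f2⟩, -⟩ := hJ.univ Y' i' (fun _ => F Y' (ap i' π) γ') fun _ =>
    (hF Y' _ _ a2).1.trans (((gm i').app_tgt n π).symm.trans (congrArg (ap i') π2))
  have a3 : ap (f ≫ g) γ = F Y (ap i π) (G Y (ap i π) γ) := by
    rw [ap_comp, f2 (), hn _ _ g _ _ a2, g2 (), ← ap_comp, g1]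
  obtain ⟨Q⟩ := hP Y
  obtain ⟨σ, hσ⟩ := hX _ _ Q.top Q.triv i
  obtain ⟨c, c', c1, c2, c3, c4, c5⟩ := Q.extM n le_rfl (ap σ u) γ _
    (by rw [hJ.src (), ← ap_comp, hσ]) (hl Y _ _ a1)
  obtain ⟨σ₁, ⟨s1, s2⟩, -⟩ := hJ.univ _ σ (fun _ => c) fun _ => c1
  obtain ⟨σ₂, ⟨s3, s4⟩, -⟩ := hJ.univ _ σ (fun _ => c') fun _ => c2
  have e1 : σ₁ ≫ Q.top = 𝟙 Y := hJ.ext (by rw [← Category.assoc, s1, hσ, Category.comp_id])
    fun t => by rw [ap_comp, s2 t, c3, ap_id]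
  have e2 : σ₂ ≫ Q.top = f ≫ g := hJ.ext
    (by rw [← Category.assoc, s3, hσ, ← Category.assoc, f1, g1])
    fun t => by rw [ap_comp, s4 t, c4, a3]
  have := Q.cmp hg hJ σ₁ σ₂ (by rw [s1, s3]) (fun t => by rw [s2 t, s4 t]; exact c5) hj hy (by
      rw [e2]
      exact map_step (gm g) (hc j hj _ _ (map_par (gm f) hy)))
  rwa [e1] at this

end Crest.Agent.R248
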