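import Crest.Agent.R248.AM

/-! Row 248: whiskered shapes are contractible. -/

namespace Crest.Agent.R248
open CategoryTheory CategoryTheory.Limits Opposite
open Crest.GeometryTopology.Coherator Crest.GeometryTopology.Coherator.GlobTheory
open Crest.GeometryTopology.Coherator.GlobTheory.GlobModel
universe u

variable {C : GlobTheory.{u}}

theorem parSh_fr {S : Shape} {n : ℕ} {u v : D n ⟶ S} (h : ParSh n u v) :
    (gs (freeOn C S)).AreParallel n (fr (C.ofShape u)) (fr (C.ofShape v)) := by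
  cases n with
  | zero => trivial
  | succ n =>
    constructor
    · change (freeOn C S).act _ _ = (freeOn C S).act _ _
      rw [act_fr, act_fr, ← C.ofShape_comp, ← C.ofShape_comp, h.1]
    · change (freeOn C S).act _ _ = (freeOn C S).act _ _
      rw [act_fr, act_fr, ← C.ofShape_comp, ← C.ofShape_comp, h.2]

theorem b_of {n k : ℕ} (hr : RepStmt C) (hi : InsStmt.{u}) (hf : FreeStmt C) (hc : CofStmt C)
    (hm : MStmt C n k) : BStmt C n k := by
  intro ι hι
  induction ι using Finite.induction_empty_option with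
  | of_equiv e ih =>
    intro S v Y i p hJ
    refine ih S (v ∘ e) Y i (p ∘ e) ⟨fun t => hJ.src _, fun Z g q hq => ?_⟩
    obtain ⟨h, ⟨h1, h2⟩, -⟩ := hJ.univ Z g (q ∘ e.symm) fun t => by
      simpa using hq (e.symm t)
    refine ⟨h, ⟨h1, fun t => by simpa using h2 (e t)⟩, fun h' hh' => hJ.ext (hh'.1.trans h1.symm)
      fun t => ?_⟩
    simpa [h2] using hh'.2 (e.symm t)
  | h_empty =>
    intro S v Y i p hJ j hj y y' hy
    obtain ⟨r, ⟨h1, -⟩, -⟩ := hJ.univ _ (𝟙 _) (fun t => t.elim) fun t => t.elim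
    have e1 : r ≫ i = 𝟙 Y := hJ.ext (by rw [← Category.assoc, h1]; simp) fun t => t.elim
    have := map_step (gm i) (hr S k j hj _ _ (map_par (gm r) hy))
    change (gs Y).Step j (ap (r ≫ i) y) (ap (r ≫ i) y') at this
    rwa [e1] at this
  | @h_option α _ ih =>
    intro S v Y i p hJ
    obtain ⟨X, iX, pX, hX⟩ := hf n α (freeOn C S) fun t => fr (C.ofShape (v (some t)))
    obtain ⟨S', ι, u', γ, h1, h2, h3⟩ := hi S n (v none)
    obtain ⟨Y', j', p', hY'⟩ := hf n α (freeOn C S') fun t => fr (C.ofShape (v (some t) ≫ ι))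
    obtain ⟨i₁, ⟨a1, a2⟩, -⟩ := hX.univ Y i (fun t => p (some t)) fun t => hJ.src _
    have hι : ∀ {m : ℕ} (w : D m ⟶ S), ap (cl (Y := freeOn C S') (fr (C.ofShape ι)))
        (fr (C.ofShape w)) = fr (C.ofShape (w ≫ ι)) := fun w => by
      rw [ap_cl, act_fr, C.ofShape_comp]
    obtain ⟨i₂, ⟨b1, b2⟩, -⟩ := hX.univ Y' (cl (fr (C.ofShape ι)) ≫ j') p' fun t => by
      rw [hY'.src, ap_comp, hι]
    refine hm X Y Y' i₁ i₂ (ap iX (fr (C.ofShape (v none)))) (ap iX (fr (C.ofShape u')))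
      (p none) (ap j' (fr (C.ofShape γ))) (hc.2.1 _ _ _ _ _ _ _ hX (hc.1 S))
      (map_step (gm iX) (hr S n n le_rfl _ _ (parSh_fr h1))) ⟨fun _ => ?_, fun Z g q hq => ?_⟩
      ⟨fun _ => ?_, fun Z g q hq => ?_⟩ (ih S' _ Y' j' p' hY')
    · rw [hJ.src, ← ap_comp, a1]
    · obtain ⟨h, ⟨c1, c2⟩, -⟩ := hJ.univ Z (iX ≫ g) (fun t => t.elim (q ()) fun t => ap g (pX t))
        (by
          rintro (_ | t)
          · exact hq ()
          · exact ((gm g).app_src n _).symm.trans (congrArg (ap g) (hX.src t)))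
      have c3 : i₁ ≫ h = g := hX.ext (by rw [← Category.assoc, a1, c1])
        fun t => by rw [ap_comp, a2, c2]; rfl
      refine ⟨h, ⟨c3, fun _ => c2 none⟩, fun h' hh' => hJ.ext ?_ ?_⟩
      · rw [c1, ← a1, Category.assoc, hh'.1]
      · rintro (_ | t)
        · exact (hh'.2 ()).trans (c2 none).symm
        · rw [← a2, ← ap_comp, ← ap_comp, hh'.1, c3]
    · rw [← ap_comp, b1, ap_comp, hι, ← h2, C.ofShape_comp, ← act_fr, ap_act]
    · have d0 : ∀ {m : ℕ} (w : D m ⟶ S), ap g (ap iX (fr (C.ofShape w))) =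
          Z.act (C.ofShape w) (ap (iX ≫ g) (fr (C.one S))) := fun w => ap_fr (iX ≫ g) _
      obtain ⟨z', ⟨z1, z2⟩, zu⟩ := h3 (gs Z) (pts (ap (iX ≫ g) (fr (C.one S)))) (q ())
        ((hq ()).trans (d0 u'))
      obtain ⟨z, rfl⟩ := pts_surj z'
      have z3 : cl (fr (C.ofShape ι)) ≫ cl z = iX ≫ g := free_hom_ext (by
        rw [ap_comp, ap_cl_one, ap_cl]
        exact pts_inj (by rw [pts_act, z1]))
      obtain ⟨h, ⟨c1, c2⟩, -⟩ := hY'.univ Z (cl z) (fun t => ap g (pX t)) fun t => by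
        rw [← hι, ← ap_comp, z3, ap_comp, ← hX.src]
        exact ((gm g).app_src n _).symm
      have c3 : i₂ ≫ h = g := hX.ext (by rw [← Category.assoc, b1, Category.assoc, c1, z3])
        fun t => by rw [ap_comp, b2, c2]
      refine ⟨h, ⟨c3, fun _ => ?_⟩, fun h' hh' => hY'.ext ?_ fun t => ?_⟩
      · rw [← ap_comp, c1, ap_cl]; exact z2
      · rw [c1]
        refine free_hom_ext ((pts_inj (zu _ ⟨?_, ?_⟩)).trans (ap_cl_one z).symm)
        · rw [← pts_act, ← ap_fr, ← hh'.1, ← Category.assoc, b1, Category.assoc, ap_comp _ (j' ≫ h'),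
            ap_cl_one]
        · rw [pts_app, ← ap_fr, ap_comp]; exact hh'.2 ()
      · rw [← b2, ← ap_comp, ← ap_comp, hh'.1, c3]

end Crest.Agent.R248
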