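import Crest.Prelude.Def_GlobularCoherator

/-! Row 248: basic API for shapes, points of globular sets and models. -/

namespace Crest.Agent.R248
open CategoryTheory CategoryTheory.Limits Opposite
open Crest.GeometryTopology.Coherator Crest.GeometryTopology.Coherator.GlobTheory
open Crest.GeometryTopology.Coherator.GlobTheory.GlobModel
universe u

/-- the `n`-globe as a shape; the `j`-cells of a shape `S` are the maps `D j ⟶ S`. -/
abbrev D (n : ℕ) : Shape := Shape.globe n

/-- the last globe of a shape, as a map of shapes -/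
noncomputable def apx (S : Shape) : D S.last ⟶ S := (S.apex : GlobPsh.globeRep S.last ⟶ S.psh)

theorem hinge_eq (S : Shape) {b : ℕ} (hb : b < S.last) :
    S.hinge hb = Shape.faceMap hb true ≫ apx S := rfl

theorem apx_glue (S : Shape) (b h : ℕ) (hb : b < S.last) (hh : b < h) :
    apx (S.glue b h hb hh) = S.inRight b h hb hh := rfl

theorem apx_globe (n : ℕ) : apx (D n) = 𝟙 (D n) := rfl

@[simp] theorem last_globe (n : ℕ) : (D n).last = n := rfl
@[simp] theorem last_glue (S : Shape) (b h : ℕ) (hb : b < S.last) (hh : b < h) :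
    (S.glue b h hb hh).last = h := rfl
@[simp] theorem dim_globe (n : ℕ) : (D n).dim = n := rfl
@[simp] theorem dim_glue (S : Shape) (b h : ℕ) (hb : b < S.last) (hh : b < h) :
    (S.glue b h hb hh).dim = max S.dim h := rfl

/-- induction on shapes -/
theorem shape_ind {P : Shape → Prop} (h0 : ∀ n, P (D n))
    (h1 : ∀ (S : Shape) (b h : ℕ) (hb : b < S.last) (hh : b < h), P S → P (S.glue b h hb hh))
    (S : Shape) : P S := by
  obtain ⟨l, p⟩ := S
  induction p with
  | single h => exact h0 h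
  | glue P b h hb hh ih => exact h1 ⟨_, P⟩ b h hb hh ih

theorem last_le_dim (S : Shape) : S.last ≤ S.dim := by
  induction S using shape_ind with
  | h0 n => exact le_rfl
  | h1 S b h hb hh ih => simp

theorem face_face {a b c : ℕ} (h : a < b) (h' : b < c) (x y : Bool) :
    Shape.faceMap h x ≫ Shape.faceMap h' y = Shape.faceMap (h.trans h') x :=
  (yoneda.map_comp (GlobeObj.faceArrow h x) (GlobeObj.faceArrow h' y)).symm

theorem σ_eq (n : ℕ) : Shape.σ n = Shape.faceMap (Nat.lt_succ_self n) false := rfl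
theorem τ_eq (n : ℕ) : Shape.τ n = Shape.faceMap (Nat.lt_succ_self n) true := rfl

theorem σ_σ (n : ℕ) : Shape.σ n ≫ Shape.σ (n + 1) = Shape.σ n ≫ Shape.τ (n + 1) := by
  simp only [σ_eq, τ_eq, face_face]
theorem τ_σ (n : ℕ) : Shape.τ n ≫ Shape.σ (n + 1) = Shape.τ n ≫ Shape.τ (n + 1) := by
  simp only [σ_eq, τ_eq, face_face]

theorem glue_w (S : Shape) (b h : ℕ) (hb : b < S.last) (hh : b < h) :
    S.hinge hb ≫ S.inLeft b h hb hh = Shape.faceMap hh false ≫ S.inRight b h hb hh :=
  pushout.condition (f := GlobPsh.globeRepFace hb true ≫ S.apex)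
    (g := GlobPsh.globeRepFace hh false)

/-- maps out of a glued shape, in the category of shapes -/
theorem glue_desc (S : Shape) (b h : ℕ) (hb : b < S.last) (hh : b < h) {T : Shape}
    (f : S ⟶ T) (g : D h ⟶ T) (w : S.hinge hb ≫ f = Shape.faceMap hh false ≫ g) :
    ∃ k : S.glue b h hb hh ⟶ T, S.inLeft b h hb hh ≫ k = f ∧ S.inRight b h hb hh ≫ k = g :=
  ⟨(pushout.desc (f := GlobPsh.globeRepFace hb true ≫ S.apex)
    (g := GlobPsh.globeRepFace hh false) (W := T.psh) f g w :),
    pushout.inl_desc (f := GlobPsh.globeRepFace hb true ≫ S.apex)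
      (g := GlobPsh.globeRepFace hh false) (W := T.psh) f g w,
    pushout.inr_desc (f := GlobPsh.globeRepFace hb true ≫ S.apex)
      (g := GlobPsh.globeRepFace hh false) (W := T.psh) f g w⟩

theorem glue_hom_ext (S : Shape) (b h : ℕ) (hb : b < S.last) (hh : b < h) {T : Shape}
    {k k' : S.glue b h hb hh ⟶ T} (h1 : S.inLeft b h hb hh ≫ k = S.inLeft b h hb hh ≫ k')
    (h2 : S.inRight b h hb hh ≫ k = S.inRight b h hb hh ≫ k') : k = k' :=
  pushout.hom_ext (f := GlobPsh.globeRepFace hb true ≫ S.apex)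
      (g := GlobPsh.globeRepFace hh false) (W := T.psh) h1 h2

/-- the arrows of the globe category are the maps of shapes between globes -/
theorem globe_arrow {j h : ℕ} (u : D j ⟶ D h) :
    ∃ a : GlobeObj.Arrow j h, u = (yoneda.map (X := GlobeObj.mk j) (Y := GlobeObj.mk h) a :) :=
  ⟨Yoneda.fullyFaithful.preimage (X := GlobeObj.mk j) (Y := GlobeObj.mk h) u,
    (Yoneda.fullyFaithful.map_preimage (X := GlobeObj.mk j) (Y := GlobeObj.mk h) u).symm⟩

theorem globe_cases {j h : ℕ} (u : D j ⟶ D h) :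
    (∃ e : j = h, u = eqToHom (by rw [e])) ∨ ∃ (l : j < h) (x : Bool), u = Shape.faceMap l x := by
  obtain ⟨a, rfl⟩ := globe_arrow u
  cases a with
  | refl => exact Or.inl ⟨rfl, yoneda.map_id (GlobeObj.mk j)⟩
  | pole l x => exact Or.inr ⟨l, x, rfl⟩

theorem globe_endo {j : ℕ} (u : D j ⟶ D j) : u = 𝟙 _ := by
  rcases globe_cases u with ⟨_, rfl⟩ | ⟨l, _, _⟩
  · simp
  · exact absurd l (lt_irrefl _)

theorem globe_le {j h : ℕ} (u : D j ⟶ D h) : j ≤ h := by
  rcases globe_cases u with ⟨e, _⟩ | ⟨l, _, _⟩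
  · exact e.le
  · exact l.le

theorem globe_lt {j h : ℕ} (l : j < h) (u : D j ⟶ D h) : ∃ x : Bool, u = Shape.faceMap l x := by
  rcases globe_cases u with ⟨e, _⟩ | ⟨l, x, h⟩
  · exact absurd e l.ne
  · exact ⟨x, h⟩

theorem face_ne {j h : ℕ} (l : j < h) : Shape.faceMap l false ≠ Shape.faceMap l true := by
  intro e
  have := Yoneda.fullyFaithful.map_injective (X := GlobeObj.mk j) (Y := GlobeObj.mk h)
    (f := GlobeObj.faceArrow l false) (g := GlobeObj.faceArrow l true) e
  cases this

/-- a cell of `D (h+1)` of dimension at most `h` lies in the source or the target face -/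
theorem globe_succ {j h : ℕ} (l : j ≤ h) (u : D j ⟶ D (h + 1)) :
    (∃ v : D j ⟶ D h, u = v ≫ Shape.σ h) ∨ ∃ v : D j ⟶ D h, u = v ≫ Shape.τ h := by
  obtain ⟨x, rfl⟩ := globe_lt (Nat.lt_succ_of_le l) u
  rcases l.eq_or_lt with rfl | l'
  · cases x
    · exact Or.inl ⟨𝟙 _, by simp [σ_eq]⟩
    · exact Or.inr ⟨𝟙 _, by simp [τ_eq]⟩
  · exact Or.inl ⟨Shape.faceMap l' x, by rw [σ_eq, face_face]⟩

/-- every cell of a glued shape comes from one of the two pieces -/
theorem glue_cells (S : Shape) (b h : ℕ) (hb : b < S.last) (hh : b < h) {j : ℕ}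
    (u : D j ⟶ S.glue b h hb hh) :
    (∃ v : D j ⟶ S, u = v ≫ S.inLeft b h hb hh) ∨
      ∃ v : D j ⟶ D h, u = v ≫ S.inRight b h hb hh := by
  have hp := (IsPushout.of_hasPushout (GlobPsh.globeRepFace hb true ≫ S.apex)
    (GlobPsh.globeRepFace hh false)).map
    ((evaluation GlobeObjᵒᵖ Type).obj (op (GlobeObj.mk j)))
  let e := fun (T : Shape) => (yonedaEquiv (X := GlobeObj.mk j) (F := T.psh))
  rcases Types.eq_or_eq_of_isPushout hp (e (S.glue b h hb hh) u) with ⟨x, hx⟩ | ⟨x, hx⟩
  · refine Or.inl ⟨(e S).symm x, (e (S.glue b h hb hh)).injective ?_⟩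
    rw [← hx]
    exact ((yonedaEquiv_comp _ _).trans (by simp [e]; rfl)).symm
  · refine Or.inr ⟨(e (D h)).symm x, (e (S.glue b h hb hh)).injective ?_⟩
    rw [← hx]
    exact ((yonedaEquiv_comp _ _).trans (by simp [e]; rfl)).symm

theorem cell_le_dim {S : Shape} {j : ℕ} (u : D j ⟶ S) : j ≤ S.dim := by
  induction S using shape_ind with
  | h0 n => exact globe_le u
  | h1 S b h hb hh ih =>
    rcases glue_cells S b h hb hh u with ⟨v, _⟩ | ⟨v, _⟩
    · exact (ih v).trans (by simp)
    · exact (globe_le v).trans (by simp)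

instance finite_cells (S : Shape) (j : ℕ) : Finite (D j ⟶ S) := by
  have hg : ∀ n, Finite (D j ⟶ D n) := by
    intro n
    rcases lt_trichotomy j n with l | rfl | l
    · exact Finite.of_surjective (fun x : Bool => Shape.faceMap l x)
        (fun u => (globe_lt l u).imp fun _ h => h.symm)
    · exact Finite.of_surjective (fun _ : Unit => 𝟙 (D j)) (fun u => ⟨(), (globe_endo u).symm⟩)
    · have : IsEmpty (D j ⟶ D n) := ⟨fun u => absurd (globe_le u) (by omega)⟩
      infer_instance
  induction S using shape_ind with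
  | h0 n => exact hg n
  | h1 S b h hb hh ih =>
    have := hg h
    refine Finite.of_surjective (α := (D j ⟶ S) ⊕ (D j ⟶ D h))
      (Sum.elim (fun v => v ≫ S.inLeft b h hb hh) (fun v => v ≫ S.inRight b h hb hh)) ?_
    intro u
    rcases glue_cells S b h hb hh u with ⟨v, hv⟩ | ⟨v, hv⟩
    · exact ⟨Sum.inl v, hv.symm⟩
    · exact ⟨Sum.inr v, hv.symm⟩

end Crest.Agent.R248
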