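import Crest.Agent.R248.Defs

/-! Row 248: cofibrant models and generation of free extensions. -/

namespace Crest.Agent.R248
open CategoryTheory CategoryTheory.Limits Opposite
open Crest.GeometryTopology.Coherator Crest.GeometryTopology.Coherator.GlobTheory
open Crest.GeometryTopology.Coherator.GlobTheory.GlobModel
universe u

namespace TrivFib
variable {Z W : GlobSet.{u}} {t : Z.Map W}

theorem par (h : TrivFib t) {j : ℕ} (a : Z.cell j) (w : W.cell j)
    (hp : W.AreParallel j (t.app j a) w) : ∃ b, Z.AreParallel j a b ∧ t.app j b = w := by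
  cases j with
  | zero => exact (h.zero w).imp fun _ e => ⟨trivial, e⟩
  | succ j =>
    obtain ⟨z, h1, h2, h3⟩ := h.succ j _ _ (Pt.par_src_tgt Z j a) w
      (hp.1.symm.trans (t.app_src _ _).symm) (hp.2.symm.trans (t.app_tgt _ _).symm)
    exact ⟨z, ⟨h1.symm, h2.symm⟩, h3⟩

theorem step (h : TrivFib t) {j : ℕ} (a : Z.cell j) (w : W.cell (j + 1))
    (hw : W.src j w = t.app j a) : ∃ z, Z.src j z = a ∧ t.app (j + 1) z = w := by
  obtain ⟨b, hb, e⟩ := h.par a (W.tgt j w) (hw ▸ Pt.par_src_tgt W j w)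
  obtain ⟨z, h1, -, h3⟩ := h.succ j a b hb w hw e.symm
  exact ⟨z, h1, h3⟩

theorem bd (h : TrivFib t) (n : ℕ) (s : Z.Sphere n) (w : W.cell n)
    (e : W.bdry n w = t.sphere n s) : ∃ z, Z.bdry n z = s ∧ t.app n z = w := by
  cases n with
  | zero => exact (h.zero w).imp fun _ e => ⟨rfl, e⟩
  | succ n =>
    have e' := congrArg Subtype.val e
    obtain ⟨z, h1, h2, h3⟩ := h.succ n _ _ s.2 w (congrArg Prod.fst e') (congrArg Prod.snd e')
    exact ⟨z, Subtype.ext (Prod.ext h1 h2), h3⟩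

theorem pt_σ (h : TrivFib t) {j : ℕ} (a : Pt Z (D j)) (w : Pt W (D (j + 1)))
    (e : a.push t = w.pull (Shape.σ j)) :
    ∃ p : Pt Z (D (j + 1)), p.push t = w ∧ p.pull (Shape.σ j) = a := by
  obtain ⟨z, h1, h2⟩ := h.step (a.app j (𝟙 _)) (w.app (j + 1) (𝟙 _)) (by
    rw [← w.app_src]
    simpa using (congrArg (fun r : Pt W (D j) => r.app j (𝟙 _)) e).symm)
  exact ⟨Pt.ch z, Pt.globe_ext (by simpa using h2), by
    rw [← Pt.ch_src, h1]; exact Pt.globe_ext (by simp)⟩

theorem pt_face (h : TrivFib t) {b k : ℕ} (l : b < k) (a : Pt Z (D b)) (w : Pt W (D k))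
    (e : a.push t = w.pull (Shape.faceMap l false)) :
    ∃ p : Pt Z (D k), p.push t = w ∧ p.pull (Shape.faceMap l false) = a := by
  induction k, l using Nat.le_induction with
  | base => exact h.pt_σ a w e
  | succ k l ih =>
    have f : Shape.faceMap (Nat.le_succ_of_le l) false = Shape.faceMap l false ≫ Shape.σ k := by
      rw [σ_eq, face_face]
    obtain ⟨p, h1, h2⟩ := ih (w.pull (Shape.σ k)) (by rw [e, ← Pt.pull_comp, ← f])
    obtain ⟨q, h3, h4⟩ := h.pt_σ p w h1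
    exact ⟨q, h3, by rw [← h2, ← h4, ← Pt.pull_comp, ← f]⟩

theorem pt (h : TrivFib t) {S : Shape} (w : Pt W S) : ∃ p : Pt Z S, p.push t = w := by
  induction S using shape_ind with
  | h0 n =>
    induction n with
    | zero =>
      obtain ⟨z, hz⟩ := h.zero (w.app 0 (𝟙 _))
      exact ⟨Pt.ch z, Pt.globe_ext (by simpa using hz)⟩
    | succ n ih =>
      obtain ⟨a, ha⟩ := ih (w.pull (Shape.σ n))
      exact (h.pt_σ a w ha).imp fun _ e => e.1
  | h1 S b k hb hk ih =>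
    obtain ⟨p, hp⟩ := ih (w.pull (S.inLeft b k hb hk))
    obtain ⟨q, h1, h2⟩ := h.pt_face hk (p.pull (S.hinge hb)) (w.pull (S.inRight b k hb hk)) (by
      rw [Pt.push_pull, hp, ← Pt.pull_comp, ← Pt.pull_comp, glue_w])
    obtain ⟨r, h3, h4⟩ := Pt.glue_ex S b k hb hk p q h2.symm
    exact ⟨r, Pt.glue_ext S b k hb hk (by rw [← Pt.push_pull, h3, hp])
      (by rw [← Pt.push_pull, h4, h1])⟩

end TrivFib

variable {C : GlobTheory.{u}}

theorem bdry_map {G G' : GlobSet.{u}} (g : G.Map G') (n : ℕ) (x : G.cell n) :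
    G'.bdry n (g.app n x) = g.sphere n (G.bdry n x) := by
  cases n with
  | zero => rfl
  | succ n => exact Subtype.ext (Prod.ext (g.app_src _ _).symm (g.app_tgt _ _).symm)

theorem sphere_comp {X Y Z : C.GlobModel} (f : X ⟶ Y) (g : Y ⟶ Z) (n : ℕ) (s : X.cells.Sphere n) :
    (cellsMap (f ≫ g)).sphere n s = (cellsMap g).sphere n ((cellsMap f).sphere n s) := by
  cases n <;> rfl

theorem attach_lift {X Y Z W : C.GlobModel} {f : X ⟶ Y} (A : IsAttaching f) (t : Z ⟶ W)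
    (ht : TrivFib (gm t)) : HasLiftingProperty f t := ⟨fun {g₀ g} sq => by
  have hb : ∀ k, W.cells.bdry _ ((cellsMap g).app _ (A.newCell k)) =
      (cellsMap (f ≫ g)).sphere _ (A.sphere k) := fun k => by
    rw [bdry_map, A.newCell_bdry, sphere_comp]
  choose z h1 h2 using fun k => TrivFib.bd (t := cellsMap t) ht _
    ((cellsMap g₀).sphere _ (A.sphere k)) _ ((hb k).trans (by rw [← sq.w, sphere_comp]))
  obtain ⟨l, ⟨h3, h4⟩, -⟩ := A.universal Z g₀ z h1
  refine ⟨⟨l, h3, (A.universal W (f ≫ g) _ hb).unique ⟨?_, fun k => ?_⟩ ⟨rfl, fun _ => rfl⟩⟩⟩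
  · rw [← Category.assoc, h3, sq.w]
  · exact (congrArg ((cellsMap t).app _) (h4 k)).trans (h2 k)⟩

theorem cof : CofStmt C := by
  refine ⟨fun S Z W t ht g => ?_, fun n ι X Y i a p hJ hX Z W t ht g => ?_, ?_⟩
  · obtain ⟨p, hp⟩ := ht.pt (pts (ap g (fr (C.one S))))
    obtain ⟨z, rfl⟩ := pts_surj p
    exact ⟨cl z, free_hom_ext (by rw [ap_comp, ap_cl_one]; exact pts_inj ((pts_ap t z).trans hp))⟩
  · obtain ⟨g₀, h0⟩ := hX Z W t ht (i ≫ g)
    have hs : ∀ s, (gs W).src n (ap g (p s)) = ap (i ≫ g) (a s) := fun s =>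
      ((gm g).app_src n _).symm.trans (congrArg (ap g) (hJ.src s))
    choose q h1 h2 using fun s => ht.step (ap g₀ (a s)) (ap g (p s))
      ((hs s).trans (by rw [← h0]; rfl))
    obtain ⟨l, ⟨h3, h4⟩, -⟩ := hJ.univ Z g₀ q h1
    refine ⟨l, (hJ.univ W (i ≫ g) _ hs).unique ⟨?_, fun s => ?_⟩ ⟨rfl, fun _ => rfl⟩⟩
    · rw [← Category.assoc, h3, h0]
    · exact (congrArg (ap t) (h4 s)).trans (h2 s)
  · rintro X ⟨P⟩ Z W t ht g
    letI := P.linOrd
    letI := P.bot
    letI := P.succ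
    letI := P.wf
    have := P.chain.isWellOrderContinuous
    have hl : HasLiftingProperty (P.chain.incl.app ⊥) t :=
      HasLiftingProperty.transfiniteComposition.hasLiftingProperty_ι_app_bot P.chain.isColimit
        fun j hj => attach_lift (P.attach j hj) t ht
    have sq : CommSq (P.chain.isoBot.hom ≫ P.startIsInitial.to Z) (P.chain.incl.app ⊥) t g :=
      ⟨(P.startIsInitial.ofIso P.chain.isoBot.symm).hom_ext _ _⟩
    exact ⟨sq.lift, sq.fac_right⟩

theorem gen : GenStmt C := by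
  intro n ι X Y i a p hJ Q h1 h2 h3 h4 S y
  let M : C.GlobModel := mkModel (fun S => {y : El Y S // Q S y})
    (fun o y => ⟨Y.act o y.1, h1 _ _ o _ y.2⟩) (fun _ x => Subtype.ext (act_one Y x.1))
    (fun f g x => Subtype.ext (act_seq Y f g x.1))
    (fun S b h hb hh x y w => by
      obtain ⟨z, e1, e2⟩ := el_glue Y S b h hb hh x.1 y.1 (congrArg Subtype.val w)
      exact ⟨⟨z, h2 S b h hb hh z (e1 ▸ x.2) (e2 ▸ y.2)⟩, Subtype.ext e1, Subtype.ext e2⟩)
    (fun S b h hb hh z z' e1 e2 => Subtype.ext (el_glue_ext Y S b h hb hh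
      (congrArg Subtype.val e1) (congrArg Subtype.val e2)))
  let v : M ⟶ Y := mkHom (fun _ y => y.1) fun _ _ => rfl
  obtain ⟨l, ⟨e1, e2⟩, -⟩ := hJ.univ M
    (mkHom (fun S x => ⟨ap i x, h3 S x⟩) fun o x => Subtype.ext (ap_act i o x))
    (fun t => ⟨p t, h4 t⟩) fun t => Subtype.ext (hJ.src t)
  have e : l ≫ v = 𝟙 Y := (hJ.univ Y i p hJ.src).unique
    ⟨by rw [← Category.assoc, e1]; exact hom_ext fun _ _ => rfl,
      fun t => congrArg (ap v) (e2 t)⟩ ⟨Category.comp_id _, fun _ => rfl⟩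
  have : (ap l y).1 = y := congrArg (fun f => ap f y) e
  exact this ▸ (ap l y).2

end Crest.Agent.R248
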