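import Crest.Agent.R248.Pts

/-! Row 248 (pushout conjecture): definitions and sub-task statements, part 1.
Use the API of `Basic.lean` (shapes), `Mod.lean` (`El, ap, gs, gm, fr, cl, mkHom, mkModel,
el_glue, el_ext`), `Pts.lean` (`Pt, pull, push, ch, glue_ex, fill, pts, pts_inj, pts_surj`). -/

namespace Crest.Agent.R248
open CategoryTheory CategoryTheory.Limits Opposite
open Crest.GeometryTopology.Coherator Crest.GeometryTopology.Coherator.GlobTheory
open Crest.GeometryTopology.Coherator.GlobTheory.GlobModel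
universe u

variable {C : GlobTheory.{u}}

/-- parallel cells of dimension at most `k` are joined by a cell -/
def Contr (k : ℕ) (Y : C.GlobModel) : Prop :=
  ∀ j ≤ k, ∀ x y : El Y (D j), (gs Y).AreParallel j x y → (gs Y).Step j x y

/-- trivial fibrations of globular sets -/
structure TrivFib {Z W : GlobSet.{u}} (t : Z.Map W) : Prop where
  zero : ∀ w : W.cell 0, ∃ z, t.app 0 z = w
  succ : ∀ (j : ℕ) (a b : Z.cell j), Z.AreParallel j a b → ∀ w : W.cell (j + 1),
    W.src j w = t.app j a → W.tgt j w = t.app j b →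
      ∃ z, Z.src j z = a ∧ Z.tgt j z = b ∧ t.app (j + 1) z = w

/-- cofibrant models -/
def Cof (X : C.GlobModel) : Prop :=
  ∀ (Z W : C.GlobModel) (t : Z ⟶ W), TrivFib (gm t) → ∀ g : X ⟶ W, ∃ g' : X ⟶ Z, g' ≫ t = g

/-- `Y` is obtained from `X` by freely adding `(n+1)`-cells `p t` with sources `a t` -/
structure IsJExt (n : ℕ) {ι : Type} {X Y : C.GlobModel} (i : X ⟶ Y) (a : ι → El X (D n))
    (p : ι → El Y (D (n + 1))) : Prop where
  src : ∀ t, (gs Y).src n (p t) = ap i (a t)
  univ : ∀ (Z : C.GlobModel) (g : X ⟶ Z) (q : ι → El Z (D (n + 1))),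
    (∀ t, (gs Z).src n (q t) = ap g (a t)) →
      ∃! h : Y ⟶ Z, i ≫ h = g ∧ ∀ t, ap h (p t) = q t

/-- 248-TW, `theorem tower (hC : Nonempty C.Tower) : TowerStmt C`. Build `G r : stage r → E` with
`(G r).comp π = toEnd r` by recursion (`stage_zero`; `free` applied to `E` with fillers lifting
`toEnd (r+1) (fill i)`, uniqueness in `free` applied to `C`), then `colim` (existence for `E`,
uniqueness for `C`). -/
def TowerStmt (C : GlobTheory.{u}) : Prop :=
  ∀ (E : GlobTheory.{u}) (π : TheoryMap E C),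
    (∀ (j : ℕ) (S : Shape), S.dim ≤ j + 1 → ∀ f g : E.arr (D j) S, E.OpsParallel j f g →
      ∀ z : C.arr (D (j + 1)) S, C.seq (C.ofShape (Shape.σ j)) z = π.map f →
        C.seq (C.ofShape (Shape.τ j)) z = π.map g →
        ∃ z' : E.arr (D (j + 1)) S, E.seq (E.ofShape (Shape.σ j)) z' = f ∧
          E.seq (E.ofShape (Shape.τ j)) z' = g ∧ π.map z' = z) →
    ∃ s : TheoryMap C E, ∀ (S T : Shape) (φ : C.arr S T), π.map (s.map φ) = φ

/-- 248-TW, `theorem sub (h : TowerStmt C) : SubStmt C`: apply `h` to the subtheory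
`E.arr S T := {φ // Q φ}`. -/
def SubStmt (C : GlobTheory.{u}) : Prop :=
  ∀ Q : ∀ {S T : Shape}, C.arr S T → Prop,
    (∀ (S T : Shape) (f : S ⟶ T), Q (C.ofShape f)) →
    (∀ (R S T : Shape) (f : C.arr R S) (g : C.arr S T), Q f → Q g → Q (C.seq f g)) →
    (∀ (S : Shape) (b h : ℕ) (hb : b < S.last) (hh : b < h) (T : Shape)
      (φ : C.arr (S.glue b h hb hh) T), Q (C.seq (C.ofShape (S.inLeft b h hb hh)) φ) →
        Q (C.seq (C.ofShape (S.inRight b h hb hh)) φ) → Q φ) →
    (∀ (j : ℕ) (S : Shape), S.dim ≤ j + 1 → ∀ z : C.arr (D (j + 1)) S,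
      Q (C.seq (C.ofShape (Shape.σ j)) z) → Q (C.seq (C.ofShape (Shape.τ j)) z) → Q z) →
    ∀ (S T : Shape) (φ : C.arr S T), Q φ

/-- 248-TW, `theorem skel (h : SubStmt C) : SkelStmt C`: operations respect agreement on the
`j`-skeleton. `Q φ :=` the statement for `φ` (all `Y p q`). Filler case: `u = 𝟙` forces
`S.dim ≤ j` so `p = q` by `el_ext`/`cell_le_dim`; otherwise `globe_succ`. -/
def SkelStmt (C : GlobTheory.{u}) : Prop :=
  ∀ (j : ℕ) (Y : C.GlobModel) (S T : Shape) (φ : C.arr S T) (p q : El Y T),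
    (∀ m ≤ j, ∀ u : D m ⟶ T, Y.act (C.ofShape u) p = Y.act (C.ofShape u) q) →
    ∀ m ≤ j, ∀ u : D m ⟶ S,
      Y.act (C.ofShape u) (Y.act φ p) = Y.act (C.ofShape u) (Y.act φ q)

/-- every admissible pair has a filler (second half of `IsCoheratorTheory`, unfolded) -/
def Fill (C : GlobTheory.{u}) : Prop :=
  ∀ (j : ℕ) (S : Shape), S.dim ≤ j + 1 → ∀ f g : C.arr (D j) S, C.OpsParallel j f g →
    ∃ z : C.arr (D (j + 1)) S, C.seq (C.ofShape (Shape.σ j)) z = f ∧
      C.seq (C.ofShape (Shape.τ j)) z = g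

theorem fill_of (hC : C.IsCoheratorTheory) : Fill C := fun j S hd f g hp =>
  hC.2 ⟨j, S, hd, f, g, hp⟩

/-- 248-RP, `theorem rep (hf : Fill C) (e : C.UnitChoice) (hs : SkelStmt C) : RepStmt C`.
For `m = j+1` build by `shape_ind` a shape `S'` with `S'.dim ≤ m`, `S'.last = min S.last m`,
`ι : S' ⟶ S` and `ρ : C.arr S S'` with: (a) `faceMap true ≫ apx S' ≫ ι = faceMap true ≫ apx S`
in dimensions `b < min S.last m`; (b) `apx S ≫ ρ = U ≫ apx S'` where `U : C.arr (D h) (D (min h m))`
is the identity or the iterated unit (`face ≫ U(h) = U(b)` for `m ≤ b < h`,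
`face ≫ U(h) = face` for `b < m`); (c) `u ≫ ρ ≫ ι = u` for all cells `u` of dimension `≤ j`.
Gluing along `b < m`: glue a globe of dimension `min h m`; along `b ≥ m`: keep `S'`.
(Stating (b) as: for every `b < S.last`, `hinge ≫ ρ` is `hinge` of `S'` if `b < m`, and is
`U(b) ≫ apx S'` if `m ≤ b`, may avoid casts; any other route is fine.)
Then for parallel `f g : arr (D j) S`, `hs` gives `f ρ ι = f`, `g ρ ι = g`; fill `(fρ, gρ)` in `S'`
and compose with `ι`. -/
def RepStmt (C : GlobTheory.{u}) : Prop := ∀ (S : Shape) (k : ℕ), Contr k (freeOn C S)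

/-- parallel cells of a shape -/
def ParSh {S : Shape} : (n : ℕ) → (D n ⟶ S) → (D n ⟶ S) → Prop
  | 0, _, _ => True
  | n + 1, u, v => Shape.σ n ≫ u = Shape.σ n ≫ v ∧ Shape.τ n ≫ u = Shape.τ n ≫ v

/-- 248-IN, `theorem ins : InsStmt.{u}`: for an `n`-cell `u` of `S` there is a parallel `u'` such
that freely adding an `(n+1)`-cell with source `u'` gives again a shape `S'`.
`shape_ind` with the extra invariant: every hinge `S.hinge hb ≫ ι` with `b < n` is the hinge of
`S'` at `b` (`b < S'.last`), and moreover EITHER (i) `u` is parallel to an `n`-cell `v ≫ apx S` of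
the last globe OR (ii) this holds for all `b < S.last`.
First prove the case "`u` parallel to `v ≫ apx S`" directly: if `n < S.last` take
`S' = S.glue n (n+1)`, `u' = hinge n`; if `n = S.last` replace the last globe by `D (n+1)`
(`D n ↦ D (n+1)`, `P.glue b n ↦ P.glue b (n+1)`, `ι` induced by `σ n` via `glue_desc`).
For `P.glue b h` and `u` from `P`: if (ii) or `b < n` take `P'.glue b h` (now (ii) holds);
otherwise (i) and `n ≤ b`, so `u` is parallel to a cell of the new globe. -/
def InsStmt : Prop :=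
  ∀ (S : Shape) (n : ℕ) (u : D n ⟶ S), ∃ (S' : Shape) (ι : S ⟶ S') (u' : D n ⟶ S)
    (γ : D (n + 1) ⟶ S'), ParSh n u' u ∧ Shape.σ n ≫ γ = u' ≫ ι ∧
      ∀ (G : GlobSet.{u}) (p : Pt G S) (c : G.cell (n + 1)), G.src n c = p.app n u' →
        ∃! q : Pt G S', q.pull ι = p ∧ q.app (n + 1) γ = c

/-- 248-FR, `theorem free : FreeStmt C` (any `C`). Term model: inductive raw terms
`Tm : Shape → Type u` (`gen` of an element of `X`, `cell t`, `act o`, `pair` on a glued shape),
an inductive functional evaluation relation `Ev I t z` for each interpretation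
`I = (Z, g, q, hq)`; `F S :=` terms defined in every interpretation modulo equal value in every
interpretation (impredicative `Prop`, so it stays in `Type u`); `mkModel`. -/
def FreeStmt (C : GlobTheory.{u}) : Prop :=
  ∀ (n : ℕ) (ι : Type) (X : C.GlobModel) (a : ι → El X (D n)),
    ∃ (Y : C.GlobModel) (i : X ⟶ Y) (p : ι → El Y (D (n + 1))), IsJExt n i a p

/-- 248-CF, `theorem cof : CofStmt C` (any `C`). Representables: lift points along a trivial
fibration (`shape_ind`; for a globe relative to a face, induction on the dimension), `pts_surj`,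
`cl`. Cellular: transfinite induction (`HasLiftingProperty.transfiniteComposition...` or by
`MorphismProperty.llp` stability), `gs_eq`, `gm_eq`. -/
def CofStmt (C : GlobTheory.{u}) : Prop :=
  (∀ S : Shape, Cof (freeOn C S)) ∧
  (∀ (n : ℕ) (ι : Type) (X Y : C.GlobModel) (i : X ⟶ Y) (a : ι → El X (D n))
    (p : ι → El Y (D (n + 1))), IsJExt n i a p → Cof X → Cof Y) ∧
  ∀ X : C.GlobModel, X.IsCellularModel → Cof X

/-- 248-CF, `theorem gen : GenStmt C` (any `C`): `{y // Q S y}` is a model (`mkModel`) receiving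
a map from `Y` that is a section of the inclusion. -/
def GenStmt (C : GlobTheory.{u}) : Prop :=
  ∀ (n : ℕ) (ι : Type) (X Y : C.GlobModel) (i : X ⟶ Y) (a : ι → El X (D n))
    (p : ι → El Y (D (n + 1))), IsJExt n i a p → ∀ Q : ∀ S : Shape, El Y S → Prop,
    (∀ (S T : Shape) (o : C.arr S T) (y : El Y T), Q T y → Q S (Y.act o y)) →
    (∀ (S : Shape) (b h : ℕ) (hb : b < S.last) (hh : b < h) (y : El Y (S.glue b h hb hh)),
      Q _ (Y.act (C.ofShape (S.inLeft b h hb hh)) y) →
      Q _ (Y.act (C.ofShape (S.inRight b h hb hh)) y) → Q _ y) →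
    (∀ (S : Shape) (x : El X S), Q S (ap i x)) → (∀ t, Q _ (p t)) → ∀ (S : Shape) (y : El Y S), Q S y

/-- 248-GR, `theorem grp (hf : Fill C) : GrpStmt C`. With `Q = (D (n+1)).glue n (n+1)`, fill to get
`inv : arr (D (n+1)) (D (n+1))` (source `τ`, target `σ`) and `cmp : arr (D (n+1)) Q`;
`G π γ = cmp (π, γ)` (choose the glued element by `el_glue`, junk otherwise),
`F π δ = G (inv π) δ`; the law is the image of a filler of a parallel pair `D (n+1) → Q` (work in
`freeOn C Q`, push along `cl`). -/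
def GrpStmt (C : GlobTheory.{u}) : Prop :=
  ∀ n : ℕ, ∃ F G : ∀ Y : C.GlobModel, El Y (D (n + 1)) → El Y (D (n + 1)) → El Y (D (n + 1)),
    (∀ Y π γ, (gs Y).tgt n π = (gs Y).src n γ →
      (gs Y).src n (G Y π γ) = (gs Y).src n π ∧ (gs Y).tgt n (G Y π γ) = (gs Y).tgt n γ) ∧
    (∀ Y π δ, (gs Y).src n π = (gs Y).src n δ →
      (gs Y).src n (F Y π δ) = (gs Y).tgt n π ∧ (gs Y).tgt n (F Y π δ) = (gs Y).tgt n δ) ∧
    (∀ (Y Z : C.GlobModel) (f : Y ⟶ Z) π δ, (gs Y).src n π = (gs Y).src n δ →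
      ap f (F Y π δ) = F Z (ap f π) (ap f δ)) ∧
    (∀ Y π γ, (gs Y).tgt n π = (gs Y).src n γ → (gs Y).Step (n + 1) γ (F Y π (G Y π γ)))

end Crest.Agent.R248
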