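import Crest.Agent.R248.Defs

/-! Row 248 (pushout conjecture): definitions and sub-task statements, part 2 (cylinders). -/

namespace Crest.Agent.R248
open CategoryTheory CategoryTheory.Limits Opposite
open Crest.GeometryTopology.Coherator Crest.GeometryTopology.Coherator.GlobTheory
open Crest.GeometryTopology.Coherator.GlobTheory.GlobModel
universe u

variable {C : GlobTheory.{u}}

/-- A system of cylinders, trivial below dimension `n`, built in dimensions `< l`; `K S` is the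
model corepresenting `Y ↦ Pt (G Y) S`. -/
structure Sys (C : GlobTheory.{u}) (n k l : ℕ) where
  G : C.GlobModel → GlobSet.{u}
  map : ∀ {Y Z : C.GlobModel}, (Y ⟶ Z) → (G Y).Map (G Z)
  map_id : ∀ (Y : C.GlobModel) (j : ℕ) (c : (G Y).cell j), (map (𝟙 Y)).app j c = c
  map_comp : ∀ {X Y Z : C.GlobModel} (f : X ⟶ Y) (g : Y ⟶ Z) (j : ℕ) (c : (G X).cell j),
    (map (f ≫ g)).app j c = (map g).app j ((map f).app j c)
  top : ∀ Y : C.GlobModel, (G Y).Map (gs Y)
  top_map : ∀ {Y Z : C.GlobModel} (f : Y ⟶ Z) (j : ℕ) (c : (G Y).cell j),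
    (top Z).app j ((map f).app j c) = ap f ((top Y).app j c)
  bot : ∀ (Y : C.GlobModel) (j : ℕ), (G Y).cell j → El Y (D j)
  bot_map : ∀ {Y Z : C.GlobModel} (f : Y ⟶ Z) (j : ℕ) (c : (G Y).cell j),
    bot Z j ((map f).app j c) = ap f (bot Y j c)
  bot_src : ∀ (Y : C.GlobModel) (j : ℕ), j + 1 < l → ∀ c : (G Y).cell (j + 1),
    bot Y j ((G Y).src j c) = (gs Y).src j (bot Y (j + 1) c)
  bot_tgt : ∀ (Y : C.GlobModel) (j : ℕ), j + 1 < l → ∀ c : (G Y).cell (j + 1),
    bot Y j ((G Y).tgt j c) = (gs Y).tgt j (bot Y (j + 1) c)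
  bot_low : ∀ (Y : C.GlobModel) (j : ℕ), j < n → ∀ c : (G Y).cell j,
    bot Y j c = (top Y).app j c
  triv : ∀ Y : C.GlobModel, TrivFib (top Y)
  fill0 : n = 0 → 0 < l → ∀ Y : C.GlobModel, Contr k Y → ∀ x y : El Y (D 0),
    ∃ c : (G Y).cell 0, (top Y).app 0 c = x ∧ bot Y 0 c = y
  fill : ∀ j : ℕ, n ≤ j + 1 → j + 1 < l → ∀ Y : C.GlobModel, Contr k Y →
    ∀ a b : (G Y).cell j, (G Y).AreParallel j a b → ∀ x y : El Y (D (j + 1)),
      (gs Y).src j x = (top Y).app j a → (gs Y).tgt j x = (top Y).app j b →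
      (gs Y).src j y = bot Y j a → (gs Y).tgt j y = bot Y j b →
      ∃ c : (G Y).cell (j + 1), (G Y).src j c = a ∧ (G Y).tgt j c = b ∧
        (top Y).app (j + 1) c = x ∧ bot Y (j + 1) c = y
  K : Shape → C.GlobModel
  univ : ∀ S : Shape, Pt (G (K S)) S
  rep : ∀ (S : Shape) (Y : C.GlobModel) (p : Pt (G Y) S),
    ∃! f : K S ⟶ Y, (univ S).push (map f) = p
  cof : ∀ S : Shape, Cof (K S)
  contr : ∀ S : Shape, Contr k (K S)

/-- a natural transport of the top `l`-cell to the bottom of its boundary cylinders -/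
structure Sys.IsT {n k l : ℕ} (Sy : Sys C n k l)
    (T : ∀ Y : C.GlobModel, (Sy.G Y).cell l → El Y (D l)) : Prop where
  nat : ∀ {Y Z : C.GlobModel} (f : Y ⟶ Z) (c : (Sy.G Y).cell l),
    T Z ((Sy.map f).app l c) = ap f (T Y c)
  bd : ∀ (Y : C.GlobModel) (m : ℕ), m < l → ∀ (u : D m ⟶ D l) (c : (Sy.G Y).cell l),
    Y.act (C.ofShape u) (T Y c) = Sy.bot Y m ((Pt.ch c).app m u)

/-- 248-ST, `theorem step (e : C.UnitChoice) (hf : FreeStmt C) (hc : CofStmt C) : StepStmt C`.
New cells of dimension `j`: pairs `(c, γ)` with `c : (G Y).cell j`,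
`γ : (D l ⟶ D j) → El Y (D (l+1))`, `src (γ u) = T ((ch c).app l u)`;
`src (c, γ) = (src c, fun u => γ (u ≫ σ))`; `top = top ∘ fst`; `bot` is `bot ∘ fst` updated at
`l` (`Function.update`) by `tgt (γ 𝟙)`. `triv`: at dimension `l` use the unit on `T c`; above,
read `γ` off the boundary (`globe_succ`, `Pt.face_inj`). `fill` at `l`: lift by `triv`, then `T c`
is parallel to `y`, `Contr k Y` gives `γ`. `K' S` := `hf` applied to `K S` and the cells
`T ((univ S).app l u)`; a point of the new system at `S` is a point `p` with a family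
`δ u`, `u : D l ⟶ S` (cell at `w` is `(p.app j w, fun u => δ (u ≫ w))`, use `Pt.ch_app`). -/
def StepStmt (C : GlobTheory.{u}) : Prop :=
  ∀ (n k l : ℕ) (Sy : Sys C n k l), n ≤ l → l ≤ k →
    ∀ T : ∀ Y : C.GlobModel, (Sy.G Y).cell l → El Y (D l), Sy.IsT T →
    (∀ (S : Shape) (Y : C.GlobModel) (i : Sy.K S ⟶ Y) (p : (D l ⟶ S) → El Y (D (l + 1))),
      IsJExt l i (fun u => T _ ((Sy.univ S).app l u)) p → Contr k Y) →
    Nonempty (Sys C n k (l + 1))

/-- The action of the operations of `C` on points of cylinders.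
248-MD, `theorem model (ht : TowerStmt C) {n k l} (Sy : Sys C n k l) (h : k < l) :
Nonempty (Act Sy)`. Theory `E.arr S T := {(φ, x) : C.arr S T × Pt (G (K T)) S // top, condC,
condR hold for `act p := x.push (map (classifying map of p))`, all `Y p`}`; composition
`(φ φ', act x x')`, `ofShape f = (ofShape f, (univ T).pull f)`; pushouts from `C.respectsSums`,
`Pt.glue_ex/glue_ext`, `glue_cells`. Lifting a filler `z : D (j+1) → S`, `S.dim ≤ j+1`: in
`Y = K S`, with `t`, `e₀ : El Y S` the top and (if `j+1 ≤ k`, via `pts_surj`, `cell_le_dim`) the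
bottom of `univ S`, take the cell over the given boundary with top `z·t` and bottom `z·e₀`:
`fill` if `n ≤ j+1 ≤ k`; `triv` + `bot_low` if `j+1 < n`; only `triv` if `k < j+1`; use `Pt.fill`.
The conditions for a cell `u` of `D (j+1)`: `u = 𝟙` by naturality, else `globe_succ`. -/
structure Act {n k l : ℕ} (Sy : Sys C n k l) where
  act : ∀ (Y : C.GlobModel) {S T : Shape}, C.arr S T → Pt (Sy.G Y) T → Pt (Sy.G Y) S
  act_seq : ∀ (Y : C.GlobModel) {R S T : Shape} (f : C.arr R S) (g : C.arr S T)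
    (p : Pt (Sy.G Y) T), act Y (C.seq f g) p = act Y f (act Y g p)
  act_shape : ∀ (Y : C.GlobModel) {S T : Shape} (f : S ⟶ T) (p : Pt (Sy.G Y) T),
    act Y (C.ofShape f) p = p.pull f
  top : ∀ (Y : C.GlobModel) {S T : Shape} (o : C.arr S T) (p : Pt (Sy.G Y) T) (y : El Y T),
    pts y = p.push (Sy.top Y) → pts (Y.act o y) = (act Y o p).push (Sy.top Y)
  condC : ∀ (Y : C.GlobModel) {S T : Shape} (o : C.arr S T) (p : Pt (Sy.G Y) T) (y : El Y T),
    (∀ m ≤ k, ∀ u : D m ⟶ T, Sy.bot Y m (p.app m u) = Y.act (C.ofShape u) y) →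
    ∀ m ≤ k, ∀ u : D m ⟶ S,
      Sy.bot Y m ((act Y o p).app m u) = Y.act (C.ofShape u) (Y.act o y)
  condR : ∀ (Y : C.GlobModel) {S T : Shape} (o : C.arr S T) (p q : Pt (Sy.G Y) T),
    (∀ m ≤ k, ∀ u : D m ⟶ T, Sy.bot Y m (p.app m u) = Sy.bot Y m (q.app m u)) →
    ∀ m ≤ k, ∀ u : D m ⟶ S,
      Sy.bot Y m ((act Y o p).app m u) = Sy.bot Y m ((act Y o q).app m u)

/-- equal bottoms on all cells of dimension at most `k` -/
def BotEq {P Y : C.GlobModel} (k : ℕ) (bot : ∀ j : ℕ, El P (D j) → El Y (D j)) {S : Shape}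
    (p q : El P S) : Prop :=
  ∀ m ≤ k, ∀ u : D m ⟶ S, bot m (P.act (C.ofShape u) p) = bot m (P.act (C.ofShape u) q)

/-- a truncated path object -/
structure Path (e : C.UnitChoice) (n k : ℕ) (Y : C.GlobModel) where
  P : C.GlobModel
  top : P ⟶ Y
  bot : ∀ j : ℕ, El P (D j) → El Y (D j)
  triv : TrivFib (gm top)
  cong : ∀ {S T : Shape} (o : C.arr S T) (p q : El P T),
    BotEq k bot p q → BotEq k bot (P.act o p) (P.act o q)
  transfer : ∀ j ≤ k, ∀ c c' : El P (D j), (gs P).AreParallel j c c' →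
    ((gs Y).Step j (ap top c) (ap top c') ↔ (gs Y).Step j (bot j c) (bot j c'))
  extA : ∀ (c₀ : El P (D n)) (p : El Y (D (n + 1))), (gs Y).src n p = ap top c₀ →
    ∃ c : El P (D (n + 1)), (gs P).src n c = c₀ ∧ ap top c = p ∧
      BotEq k bot c (P.act (e.unit n) c₀)
  extM : ∀ j : ℕ, n ≤ j + 1 → ∀ (c₀ : El P (D j)) (z z' : El Y (D (j + 1))),
    (gs Y).src j z = ap top c₀ → (gs Y).Step (j + 1) z z' →
    ∃ c c' : El P (D (j + 1)), (gs P).src j c = c₀ ∧ (gs P).src j c' = c₀ ∧ ap top c = z ∧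
      ap top c' = z' ∧ BotEq k bot c c'

/-- 248-PA, `theorem path (e) {n k l} (Sy : Sys C n k l) (h : k < l) (A : Act Sy) :
PathStmt e n k`. `P := mkModel (Pt (G Y)) (A.act Y)`, cells `Pt (G Y) (D j)` ↔ `(G Y).cell j` by
`ch` / `.app j 𝟙`. Every cell `c` of `G Y` of dimension `j` is the image of the universal one
in the contractible `K (D j)` (`rep`, `contr`).
`transfer →`: lift the joining cell over `(c, c')` by `triv`, bottoms of the two faces of the
universal cell of `K (D (j+1))` are parallel, so joined; push forward.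
`transfer ←`: by induction on `j ≤ k` there is a natural, parallel-preserving `I` on `j`-cells with
`top (I c) = bot c`, `bot (I c) = top c` (`src (I c) = I (src c)`; define it on the universal cell by
`fill0/fill`, or `triv` + `bot_low` when `j < n`); apply `→` to `I c, I c'`.
`extA`: lift `tgt p` parallel to `c₀`, then `p`, by `triv`; in `K (D (n+1))` use `fill` (if `n ≤ k`)
for `c₁ ∥ c₀` with top `tgt p`, bottom `bot c₀`, then `fill` (if `n+1 ≤ k`, else `triv`) for
`c : c₀ → c₁` with bottom the unit on `bot c₀`; compare with `condC`. `extM` likewise in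
`K (D (j+2))`: `c :=` source of the lifted cell, `c'` by `fill` with the bottom of `c`. -/
def PathStmt (e : C.UnitChoice) (n k : ℕ) : Prop := ∀ Y : C.GlobModel, Nonempty (Path e n k Y)

/-- 248-AM, `theorem a_of (hg : GenStmt C) (hP : PathStmt e n k) : AStmt e n k`. Lift `i` to
`σ : X ⟶ P` (`Cof`, `triv`); `σ₂ = r ≫ σ`; `σ₁ : Y ⟶ P` extends `σ` by the cells of `extA`;
`σ₁ ≫ top = 𝟙` (uniqueness); `hg` with `Q y := BotEq k bot (σ₁ y) (σ₂ y)` (`cong`, `glue_cells`);
then `transfer` twice. -/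
def AStmt (e : C.UnitChoice) (n k : ℕ) : Prop :=
  ∀ (ι : Type) (X Y : C.GlobModel) (i : X ⟶ Y) (a : ι → El X (D n)) (p : ι → El Y (D (n + 1))),
    Cof X → IsJExt n i a p → ∀ r : Y ⟶ X, i ≫ r = 𝟙 X →
    (∀ t, ap r (p t) = X.act (e.unit n) (a t)) →
    ∀ j ≤ k, ∀ y y' : El Y (D j), (gs Y).AreParallel j y y' →
      (gs X).Step j (ap r y) (ap r y') → (gs Y).Step j y y'

/-- 248-AM, `theorem m_of (hg : GenStmt C) (hr : GrpStmt C) (hP : PathStmt e (n+1) k) :
MStmt C n k`. With `π : u' → u`: `g : Y' ⟶ Y`, `γ' ↦ G π γ`; `f : Y ⟶ Y'`, `γ ↦ F π γ'`;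
`extM` for `z = γ`, `z' = g (f γ)` gives `σ₁ σ₂ : Y ⟶ P` extending a lift of `i`, with tops `𝟙` and
`f ≫ g` and equal bottoms (`hg`); `transfer` twice. -/
def MStmt (C : GlobTheory.{u}) (n k : ℕ) : Prop :=
  ∀ (X Y Y' : C.GlobModel) (i : X ⟶ Y) (i' : X ⟶ Y') (u u' : El X (D n))
    (γ : El Y (D (n + 1))) (γ' : El Y' (D (n + 1))), Cof X → (gs X).Step n u' u →
    IsJExt n i (fun _ : Unit => u) (fun _ => γ) → IsJExt n i' (fun _ : Unit => u') (fun _ => γ') →
    Contr k Y' → Contr k Y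

/-- 248-B, `theorem b_of (hr : RepStmt C) (hi : InsStmt.{u}) (hf : FreeStmt C) (hc : CofStmt C)
(hm : MStmt C n k) : BStmt C n k`. Induction on the finite type (`Finite.induction_empty_option`,
generalizing `S`). For `Option ι`: `X :=` extension of `freeOn S` at `v ∘ some`; `Y` is an
extension of `X` at `v none`; with `S', ι, u', γ` from `hi`, `Y' :=` extension of `freeOn S'` at
`v (some t) ≫ ι` is contractible (induction) and is an extension of `X` at `u'`; `u'` and
`v none` are joined by `hr`; conclude by `hm`. -/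
def BStmt (C : GlobTheory.{u}) (n k : ℕ) : Prop :=
  ∀ (ι : Type) [Finite ι] (S : Shape) (v : ι → (D n ⟶ S)) (Y : C.GlobModel)
    (i : freeOn C S ⟶ Y) (p : ι → El Y (D (n + 1))),
    IsJExt n i (fun t => fr (C.ofShape (v t))) p → Contr k Y

end Crest.Agent.R248
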