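import Crest.Agent.R248.Defs2

/-! Row 248: final assembly from the sub-task statements. -/

namespace Crest.Agent.R248
open CategoryTheory CategoryTheory.Limits Opposite
open Crest.GeometryTopology.Coherator Crest.GeometryTopology.Coherator.GlobTheory
open Crest.GeometryTopology.Coherator.GlobTheory.GlobModel
universe u

variable {C : GlobTheory.{u}}

theorem map_par {G G' : GlobSet.{u}} (g : G.Map G') {j : ℕ} {x y : G.cell j}
    (h : G.AreParallel j x y) : G'.AreParallel j (g.app j x) (g.app j y) := by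
  cases j with
  | zero => trivial
  | succ j => exact ⟨by rw [← g.app_src, ← g.app_src, h.1], by rw [← g.app_tgt, ← g.app_tgt, h.2]⟩

theorem map_step {G G' : GlobSet.{u}} (g : G.Map G') {j : ℕ} {x y : G.cell j}
    (h : G.Step j x y) : G'.Step j (g.app j x) (g.app j y) := by
  obtain ⟨c, rfl, rfl⟩ := h
  exact ⟨g.app _ c, (g.app_src _ _).symm, (g.app_tgt _ _).symm⟩

theorem src_unit (e : C.UnitChoice) (Y : C.GlobModel) (n : ℕ) (x : El Y (D n)) :
    (gs Y).src n (Y.act (e.unit n) x) = x := by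
  change Y.act _ (Y.act _ x) = x
  rw [← act_seq, e.src_unit, act_one]

theorem tgt_unit (e : C.UnitChoice) (Y : C.GlobModel) (n : ℕ) (x : El Y (D n)) :
    (gs Y).tgt n (Y.act (e.unit n) x) = x := by
  change Y.act _ (Y.act _ x) = x
  rw [← act_seq, e.tgt_unit, act_one]

/-- the trivial system -/
noncomputable def Sys.init (hr : RepStmt C) (hc : CofStmt C) (n k : ℕ) : Sys C n k n where
  G Y := gs Y
  map f := gm f
  map_id _ _ _ := rfl
  map_comp _ _ _ _ := rfl
  top Y := gm (𝟙 Y)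
  top_map _ _ _ := rfl
  bot _ _ c := c
  bot_map _ _ _ := rfl
  bot_src _ _ _ _ := rfl
  bot_tgt _ _ _ _ := rfl
  bot_low _ _ _ _ := rfl
  triv _ := ⟨fun w => ⟨w, rfl⟩, fun _ _ _ _ w h1 h2 => ⟨w, h1, h2, rfl⟩⟩
  fill0 h h' := by omega
  fill j h h' := by omega
  K S := freeOn C S
  univ S := pts (fr (C.one S))
  rep S Y p := by
    obtain ⟨y, rfl⟩ := pts_surj p
    refine ⟨cl y, by change _ = _; rw [← pts_ap, ap_cl_one], fun f hf => free_hom_ext ?_⟩
    rw [ap_cl_one]
    exact pts_inj (by rw [pts_ap]; exact hf)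
  cof := hc.1
  contr S := hr S k

theorem Sys.bot_par {n k l : ℕ} (Sy : Sys C n k l) (Y : C.GlobModel) {j : ℕ} (hj : j < l)
    {a b : (Sy.G Y).cell j} (h : (Sy.G Y).AreParallel j a b) :
    (gs Y).AreParallel j (Sy.bot Y j a) (Sy.bot Y j b) := by
  cases j with
  | zero => trivial
  | succ j =>
    exact ⟨by rw [← Sy.bot_src Y j hj, ← Sy.bot_src Y j hj, h.1],
      by rw [← Sy.bot_tgt Y j hj, ← Sy.bot_tgt Y j hj, h.2]⟩

theorem Sys.bot_ch {n k l : ℕ} (Sy : Sys C n k l) (Y : C.GlobModel) {j : ℕ} (hj : j < l)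
    (c : (Sy.G Y).cell j) {m : ℕ} (u : D m ⟶ D j) :
    Sy.bot Y m ((Pt.ch c).app m u) = Y.act (C.ofShape u) (Sy.bot Y j c) := by
  induction j with
  | zero =>
    obtain rfl : m = 0 := Nat.le_zero.1 (globe_le u)
    rw [globe_endo u, Pt.ch_id, act_id]
  | succ j ih =>
    rcases (globe_le u).eq_or_lt with rfl | l'
    · rw [globe_endo u, Pt.ch_id, act_id]
    · rcases globe_succ (Nat.le_of_lt_succ l') u with ⟨v, rfl⟩ | ⟨v, rfl⟩
      · rw [← Pt.pull_app, ← Pt.ch_src, ih (by omega), Sy.bot_src Y j hj, act_comp]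
      · rw [← Pt.pull_app, ← Pt.ch_tgt, ih (by omega), Sy.bot_tgt Y j hj, act_comp]

theorem Sys.exT {n k m : ℕ} (Sy : Sys C n k (m + 1)) (hm : m ≤ k) :
    ∃ T : ∀ Y : C.GlobModel, (Sy.G Y).cell (m + 1) → El Y (D (m + 1)), Sy.IsT T := by
  have hp := Sy.bot_par (Sy.K (D (m + 1))) (Nat.lt_succ_self m)
    (Pt.par_src_tgt _ m ((Sy.univ (D (m + 1))).app (m + 1) (𝟙 _)))
  obtain ⟨t, hs, ht⟩ := Sy.contr (D (m + 1)) m hm _ _ hp
  choose f hf hu using fun (Y : C.GlobModel) (c : (Sy.G Y).cell (m + 1)) =>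
    Sy.rep (D (m + 1)) Y (Pt.ch c)
  have hf' : ∀ Y c, (Sy.map (f Y c)).app (m + 1) ((Sy.univ (D (m + 1))).app (m + 1) (𝟙 _)) = c :=
    fun Y c => (congrArg (fun r : Pt (Sy.G Y) (D (m + 1)) => r.app (m + 1) (𝟙 _))
      (hf Y c)).trans (Pt.ch_id c)
  refine ⟨fun Y c => ap (f Y c) t, fun {Y Z} g c => ?_, fun Y i hi u c => ?_⟩
  · rw [← ap_comp, hu Z _ (f Y c ≫ g) (Pt.globe_ext ?_)]
    rw [Pt.push_app, Sy.map_comp, hf', Pt.ch_id]
  · rcases globe_succ (Nat.le_of_lt_succ hi) u with ⟨v, rfl⟩ | ⟨v, rfl⟩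
    · rw [← Pt.pull_app, ← Pt.ch_src, Sy.bot_ch Y (Nat.lt_succ_self m), act_comp, ← ap_act]
      congr 1
      refine (congrArg (ap (f Y c)) hs).trans ?_
      rw [← Sy.bot_map, (Sy.map (f Y c)).app_src, hf']
    · rw [← Pt.pull_app, ← Pt.ch_tgt, Sy.bot_ch Y (Nat.lt_succ_self m), act_comp, ← ap_act]
      congr 1
      refine (congrArg (ap (f Y c)) ht).trans ?_
      rw [← Sy.bot_map, (Sy.map (f Y c)).app_tgt, hf']

theorem ext_contr (e : C.UnitChoice) {n k : ℕ} (hA : AStmt e n k) {ι : Type} {X Y : C.GlobModel}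
    {i : X ⟶ Y} {a : ι → El X (D n)} {p : ι → El Y (D (n + 1))} (hX : Cof X) (hc : Contr k X)
    (h : IsJExt n i a p) : Contr k Y := by
  obtain ⟨r, ⟨h1, h2⟩, -⟩ := h.univ X (𝟙 X) (fun t => X.act (e.unit n) (a t))
    (fun t => src_unit e X n (a t))
  intro j hj y y' hp
  exact hA ι X Y i a p hX h r h1 h2 j hj y y' hp (hc j hj _ _ (map_par (gm r) hp))

/-- all the sub-task theorems, bundled -/
structure Tasks {C : GlobTheory.{u}} (e : C.UnitChoice) : Prop where
  rep : RepStmt C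
  cof : CofStmt C
  step : StepStmt C
  path : ∀ {n k l : ℕ} (_ : Sys C n k l), k < l → PathStmt e n k
  a_of : ∀ {n k : ℕ}, PathStmt e n k → AStmt e n k
  b_of : ∀ {n k : ℕ}, PathStmt e (n + 1) k → BStmt C n k

theorem Tasks.path_all {e : C.UnitChoice} (h : Tasks e) (k : ℕ) :
    ∀ (d n : ℕ), k + 1 ≤ n + d → PathStmt e n k := by
  intro d
  induction d with
  | zero => exact fun n hn => h.path (Sys.init h.rep h.cof n k) hn
  | succ d ih =>
    intro n hn
    by_cases hk : k < n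
    · exact h.path (Sys.init h.rep h.cof n k) hk
    have key : ∀ l, n + 1 ≤ l → l ≤ k + 1 → Nonempty (Sys C n k l) := by
      intro l hl
      induction l, hl using Nat.le_induction with
      | base =>
        intro _
        refine h.step n k n (Sys.init h.rep h.cof n k) le_rfl (by omega) (fun _ c => c)
          ⟨fun _ _ => rfl, fun Y m _ u c => ?_⟩ (fun S Y i p hJ => ?_)
        · change _ = (Pt.ch (G := gs Y) c).app m u
          rw [show Pt.ch (G := gs Y) c = pts (Y := Y) c from Pt.globe_ext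
            ((Pt.ch_id (G := gs Y) c).trans (act_id Y (S := D n) c).symm)]
          rfl
        · refine h.b_of (ih (n + 1) (by omega)) (D n ⟶ S) S id Y i p ?_
          have e1 : (fun t : D n ⟶ S => fr (C.ofShape (id t))) =
              fun u => ((Sys.init h.rep h.cof n k).univ S).app n u :=
            funext fun u => congrArg fr (C.seq_one _).symm
          rw [e1]
          exact hJ
      | succ l hl ihl =>
        intro hl'
        obtain ⟨Sy⟩ := ihl (by omega)
        obtain ⟨m, rfl⟩ : ∃ m, l = m + 1 := ⟨l - 1, by omega⟩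
        obtain ⟨T, hT⟩ := Sy.exT (by omega)
        exact h.step n k (m + 1) Sy (by omega) (by omega) T hT fun S Y i p hJ =>
          ext_contr e (h.a_of (ih (m + 1) (by omega))) (Sy.cof S) (Sy.contr S) hJ
    obtain ⟨Sy⟩ := key (k + 1) (by omega) le_rfl
    exact h.path Sy (Nat.lt_succ_self k)

theorem basePoint_map (e : C.UnitChoice) {X Y : C.GlobModel} (f : X ⟶ Y) (x : El X (D 0)) :
    ∀ k, ap f (S := D k) (X.basePoint e x k) = Y.basePoint e (ap f x) k
  | 0 => rfl
  | k + 1 => (ap_act f (e.unit k) _).trans (congrArg (Y.act (e.unit k)) (basePoint_map e f x k))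

theorem weq_of (e : C.UnitChoice) {X Y : C.GlobModel} (i : X ⟶ Y) (r : Y ⟶ X)
    (hr : i ≫ r = 𝟙 X)
    (hf : ∀ (j : ℕ) (y y' : El Y (D j)), (gs Y).AreParallel j y y' →
      (gs X).Step j (ap r y) (ap r y') → (gs Y).Step j y y') : IsWeakEquiv e i := by
  have hri : ∀ {S : Shape} (x : El X S), ap r (ap i x) = x := fun x => by
    rw [← ap_comp, hr, ap_id]
  have hst : ∀ (j : ℕ) (y : El Y (D j)), (gs Y).AreParallel j (ap i (ap r y)) y →
      (gs Y).Step j (ap i (ap r y)) y := fun j y hp =>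
    hf j _ _ hp ⟨X.act (e.unit j) (ap r y), by rw [src_unit, hri], tgt_unit e X j _⟩
  refine ⟨⟨?_, ?_⟩, fun x n => ⟨?_, ?_⟩⟩
  · refine Function.LeftInverse.injective (g := componentsMap r) ?_
    rintro ⟨x⟩
    exact congrArg (Quot.mk _) (hri (S := D 0) x)
  · rintro ⟨y⟩
    exact ⟨Quot.mk _ (ap r (S := D 0) y), Quot.sound (hst 0 y trivial)⟩
  all_goals
    let ρ : Y.LoopsAt e ((cellsMap i).app 0 x) n → X.LoopsAt e x n := fun z =>
      ⟨ap r (S := D (n + 1)) z.1,
        ((gm r).app_src n z.1).symm.trans ((congrArg (ap r (S := D n)) z.2.1).trans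
          ((basePoint_map e r _ n).trans (congrArg (fun t => X.basePoint e t n) (hri x)))),
        ((gm r).app_tgt n z.1).symm.trans ((congrArg (ap r (S := D n)) z.2.2).trans
          ((basePoint_map e r _ n).trans (congrArg (fun t => X.basePoint e t n) (hri x))))⟩
  · refine Function.LeftInverse.injective
      (g := Quot.map ρ (fun a b h => map_step (gm r) h)) ?_
    rintro ⟨z⟩
    exact congrArg (Quot.mk _) (Subtype.ext (hri (S := D (n + 1)) z.1))
  · rintro ⟨z⟩
    refine ⟨Quot.mk _ (ρ z), Quot.sound (hst (n + 1) z.1 ?_)⟩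
    exact ⟨(loopsMap i e x n (ρ z)).2.1.trans z.2.1.symm,
      (loopsMap i e x n (ρ z)).2.2.trans z.2.2.symm⟩

theorem Tasks.final {e : C.UnitChoice} (h : Tasks e) (X : C.GlobModel) (hX : X.IsCellularModel)
    (n : ℕ) (a : diskModel C n ⟶ X) (Y : C.GlobModel) (i : X ⟶ Y)
    (b : diskModel C (n + 1) ⟶ Y) (sq : IsPushout a (sourceIncl C n) i b) :
    IsWeakEquiv e i := by
  have hσ : ∀ {Z : C.GlobModel} (g : freeOn C (D (n + 1)) ⟶ Z),
      ap ((show freeOn C (D n) ⟶ freeOn C (D (n + 1)) from sourceIncl C n) ≫ g)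
        (fr (C.one (D n))) = (gs Z).src n (ap g (fr (C.one _))) := fun g =>
    (congrArg (ap g) (congrArg fr (C.one_seq (C.ofShape (Shape.σ n))))).trans (ap_fr g _)
  have hJ : IsJExt n i (fun _ : Unit => ap (X := freeOn C (D n)) a (fr (C.one _)))
      (fun _ => ap (X := freeOn C (D (n + 1))) b (fr (C.one _))) := by
    refine ⟨fun _ => ?_, fun Z g q hq => ?_⟩
    · exact (hσ b).symm.trans
        (congrArg (fun f => ap (X := freeOn C (D n)) f (fr (C.one _))) sq.w.symm)
    · have w : a ≫ g = sourceIncl C n ≫ (cl (q ()) : diskModel C (n + 1) ⟶ Z) :=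
        free_hom_ext (S := D n) ((hq ()).symm.trans (((hσ (cl (q ()))).trans
          (congrArg _ (ap_cl_one _))).symm))
      refine ⟨sq.desc g (cl (q ())) w, ⟨sq.inl_desc _ _ _, fun _ => ?_⟩, fun f hf => ?_⟩
      · exact (congrArg (fun f => ap (X := freeOn C (D (n + 1))) f (fr (C.one _)))
          (sq.inr_desc g (cl (q ())) w)).trans (ap_cl_one _)
      · refine sq.hom_ext (hf.1.trans (sq.inl_desc _ _ w).symm) (Eq.trans ?_ (sq.inr_desc _ _ w).symm)
        exact free_hom_ext (S := D (n + 1)) ((hf.2 ()).trans (ap_cl_one _).symm)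
  obtain ⟨r, ⟨h1, h2⟩, -⟩ := hJ.univ X (𝟙 X) (fun _ => X.act (e.unit n) _)
    (fun _ => src_unit e X n _)
  exact weq_of e i r h1 fun j y y' hp hs =>
    h.a_of (h.path_all j (j + 1) n (by omega)) Unit X Y i _ _ (h.cof.2.2 X hX) hJ r h1 h2 j le_rfl
      y y' hp hs

end Crest.Agent.R248
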