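import Crest.Agent.R248.Defs

/-! Row 248: existence of free extensions (term model). -/

namespace Crest.Agent.R248
open CategoryTheory CategoryTheory.Limits Opposite
open Crest.GeometryTopology.Coherator Crest.GeometryTopology.Coherator.GlobTheory
open Crest.GeometryTopology.Coherator.GlobTheory.GlobModel
universe u

namespace FR
variable {C : GlobTheory.{u}}

/-- raw terms -/
inductive Tm (X : C.GlobModel) (n : ℕ) (ι : Type) : Shape → Type u
  | gen {S : Shape} (x : El X S) : Tm X n ι S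
  | cell (t : ι) : Tm X n ι (D (n + 1))
  | act {S T : Shape} (o : C.arr S T) (y : Tm X n ι T) : Tm X n ι S
  | pair (S : Shape) (b h : ℕ) (hb : b < S.last) (hh : b < h) (x : Tm X n ι S)
      (y : Tm X n ι (D h)) : Tm X n ι (S.glue b h hb hh)

variable {X : C.GlobModel} {n : ℕ} {ι : Type}

/-- interpretations -/
structure Itp (a : ι → El X (D n)) where
  Z : C.GlobModel
  g : X ⟶ Z
  q : ι → El Z (D (n + 1))
  hq : ∀ t, (gs Z).src n (q t) = ap g (a t)

variable {a : ι → El X (D n)}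

/-- evaluation relation -/
noncomputable def Ev (I : Itp a) {S : Shape} (t : Tm X n ι S) : El I.Z S → Prop :=
  Tm.rec (motive := fun S _ => El I.Z S → Prop) (fun x z => z = ap I.g x) (fun t z => z = I.q t)
    (fun o _ ih z => ∃ w, ih w ∧ z = I.Z.act o w)
    (fun S b h hb hh _ _ ih ih' z => ih (I.Z.act (C.ofShape (S.inLeft b h hb hh)) z) ∧
      ih' (I.Z.act (C.ofShape (S.inRight b h hb hh)) z)) t

theorem Ev.uniq (I : Itp a) {S : Shape} (t : Tm X n ι S) :
    ∀ {z z' : El I.Z S}, Ev I t z → Ev I t z' → z = z' := by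
  induction t with
  | gen x => exact fun h h' => h.trans h'.symm
  | cell t => exact fun h h' => h.trans h'.symm
  | act o y ih =>
    rintro z z' ⟨w, hw, rfl⟩ ⟨w', hw', rfl⟩
    rw [ih hw hw']
  | pair S b h hb hh x y ih ih' =>
    exact fun h1 h2 => el_glue_ext _ S b h hb hh (ih h1.1 h2.1) (ih' h1.2 h2.2)

variable (a) in
/-- terms defined in every interpretation -/
def DT (S : Shape) : Type u := {t : Tm X n ι S // ∀ I : Itp a, ∃ z, Ev I t z}

noncomputable def val (I : Itp a) {S : Shape} (t : DT a S) : El I.Z S := (t.2 I).choose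
theorem val_ev (I : Itp a) {S : Shape} (t : DT a S) : Ev I t.1 (val I t) := (t.2 I).choose_spec
theorem val_eq (I : Itp a) {S : Shape} (t : DT a S) {z} (h : Ev I t.1 z) : val I t = z :=
  Ev.uniq I _ (val_ev I t) h

variable (a) in
def F (S : Shape) : Type u := Quot fun s t : DT a S => ∀ I, val I s = val I t

noncomputable def vq (I : Itp a) {S : Shape} : F a S → El I.Z S :=
  Quot.lift (val I) fun _ _ h => h I

theorem F_ext {S : Shape} {x y : F a S} (h : ∀ I, vq I x = vq I y) : x = y := by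
  obtain ⟨s⟩ := x
  obtain ⟨t⟩ := y
  exact Quot.sound h

def dact {S T : Shape} (o : C.arr S T) (t : DT a T) : DT a S :=
  ⟨.act o t.1, fun I => ⟨_, _, val_ev I t, rfl⟩⟩
theorem val_dact (I : Itp a) {S T : Shape} (o : C.arr S T) (t : DT a T) :
    val I (dact o t) = I.Z.act o (val I t) := val_eq I _ ⟨_, val_ev I t, rfl⟩

def fact {S T : Shape} (o : C.arr S T) : F a T → F a S :=
  Quot.map (dact o) fun _ _ h I => by rw [val_dact, val_dact, h I]
theorem vq_fact (I : Itp a) {S T : Shape} (o : C.arr S T) (x : F a T) :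
    vq I (fact o x) = I.Z.act o (vq I x) := by
  obtain ⟨t⟩ := x
  exact val_dact I o t

variable (a) in
noncomputable def Y : C.GlobModel :=
  mkModel (F a) fact (fun _ _ => F_ext fun I => by rw [vq_fact, act_one])
    (fun _ _ _ => F_ext fun I => by rw [vq_fact, vq_fact, vq_fact, act_seq])
    (fun S b h hb hh x y w => by
      obtain ⟨s⟩ := x
      obtain ⟨t⟩ := y
      have key : ∀ I : Itp a, ∃ z, I.Z.act (C.ofShape (S.inLeft b h hb hh)) z = val I s ∧
          I.Z.act (C.ofShape (S.inRight b h hb hh)) z = val I t := fun I =>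
        el_glue _ S b h hb hh _ _
          ((vq_fact I _ _).symm.trans ((congrArg (vq I) w).trans (vq_fact I _ _)))
      have ev : ∀ I : Itp a, Ev I (.pair S b h hb hh s.1 t.1) (key I).choose := fun I =>
        ⟨(congrArg (Ev I s.1) (key I).choose_spec.1).mpr (val_ev I s),
          (congrArg (Ev I t.1) (key I).choose_spec.2).mpr (val_ev I t)⟩
      refine ⟨Quot.mk _ ⟨.pair S b h hb hh s.1 t.1, fun I => ⟨_, ev I⟩⟩, F_ext fun I => ?_,
        F_ext fun I => ?_⟩
      · exact (vq_fact I _ _).trans ((congrArg _ (val_eq I _ (ev I))).trans (key I).choose_spec.1)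
      · exact (vq_fact I _ _).trans ((congrArg _ (val_eq I _ (ev I))).trans (key I).choose_spec.2))
    (fun S b h hb hh z z' h1 h2 => F_ext fun I => el_glue_ext _ S b h hb hh
      ((vq_fact I _ _).symm.trans ((congrArg (vq I) h1).trans (vq_fact I _ _)))
      ((vq_fact I _ _).symm.trans ((congrArg (vq I) h2).trans (vq_fact I _ _))))

def fgen {S : Shape} (x : El X S) : F a S := Quot.mk _ ⟨.gen x, fun _ => ⟨_, rfl⟩⟩
theorem vq_fgen (I : Itp a) {S : Shape} (x : El X S) : vq I (fgen x) = ap I.g x :=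
  val_eq I _ rfl
def fcell (t : ι) : F a (D (n + 1)) := Quot.mk _ ⟨.cell t, fun _ => ⟨_, rfl⟩⟩
theorem vq_fcell (I : Itp a) (t : ι) : vq I (fcell t) = I.q t := val_eq I _ rfl

variable (a) in
noncomputable def inc : X ⟶ Y a := mkHom (fun _ x => fgen x) fun o x => F_ext fun I =>
  (vq_fgen I _).trans ((ap_act _ _ _).trans ((vq_fact I _ _).trans (congrArg _ (vq_fgen I _))).symm)

theorem ev_hom (I : Itp a) (f : Y a ⟶ I.Z) (h1 : inc a ≫ f = I.g)
    (h2 : ∀ t, ap f (S := D (n + 1)) (fcell t) = I.q t) {S : Shape} (t : Tm X n ι S) :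
    ∀ ht, Ev I t (ap f (S := S) (Quot.mk _ ⟨t, ht⟩)) := by
  induction t with
  | gen x => exact fun _ => congrArg (fun g => ap g x) h1
  | cell t => exact fun _ => h2 t
  | act o y ih =>
    intro ht
    have hy : ∀ I : Itp a, ∃ z, Ev I y z := fun I => (ht I).elim fun _ h => h.imp fun _ h => h.1
    exact ⟨_, ih hy, ap_act f o (Quot.mk _ ⟨y, hy⟩)⟩
  | pair S b h hb hh x y ih ih' =>
    intro ht
    have hx : ∀ I : Itp a, ∃ z, Ev I x z := fun I => (ht I).elim fun _ h => ⟨_, h.1⟩
    have hy : ∀ I : Itp a, ∃ z, Ev I y z := fun I => (ht I).elim fun _ h => ⟨_, h.2⟩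
    have e1 : (Y a).act (C.ofShape (S.inLeft b h hb hh)) (Quot.mk _ ⟨_, ht⟩) =
        Quot.mk _ ⟨x, hx⟩ := F_ext fun J => (val_dact J _ ⟨_, ht⟩).trans
      (val_eq J ⟨x, hx⟩ (val_ev J ⟨_, ht⟩).1).symm
    have e2 : (Y a).act (C.ofShape (S.inRight b h hb hh)) (Quot.mk _ ⟨_, ht⟩) =
        Quot.mk _ ⟨y, hy⟩ := F_ext fun J => (val_dact J _ ⟨_, ht⟩).trans
      (val_eq J ⟨y, hy⟩ (val_ev J ⟨_, ht⟩).2).symm
    exact ⟨(congrArg (Ev I x) ((ap_act f _ _).symm.trans (congrArg (ap f) e1))).mpr (ih hx),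
      (congrArg (Ev I y) ((ap_act f _ _).symm.trans (congrArg (ap f) e2))).mpr (ih' hy)⟩

end FR

open FR in
theorem free {C : GlobTheory.{u}} : FreeStmt C := by
  intro n ι X a
  refine ⟨Y a, inc a, fcell, fun t => F_ext fun I => ?_, fun Z g q hq => ?_⟩
  · exact (vq_fact I _ _).trans ((congrArg _ (vq_fcell I t)).trans
      ((I.hq t).trans (vq_fgen I _).symm))
  · let I : Itp a := ⟨Z, g, q, hq⟩
    refine ⟨mkHom (fun _ => vq I) (vq_fact I), ⟨hom_ext fun _ x => vq_fgen I x, vq_fcell I⟩,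
      fun f hf => hom_ext fun S x => ?_⟩
    obtain ⟨t⟩ := x
    exact (val_eq I t (ev_hom I f hf.1 hf.2 t.1 t.2)).symm

end Crest.Agent.R248
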