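import Crest.Agent.R248.Defs

/-! Row 248: composition with a cell, and its homotopy inverse. -/

namespace Crest.Agent.R248
open CategoryTheory CategoryTheory.Limits Opposite
open Crest.GeometryTopology.Coherator Crest.GeometryTopology.Coherator.GlobTheory
open Crest.GeometryTopology.Coherator.GlobTheory.GlobModel
universe u

variable {C : GlobTheory.{u}}

namespace GR
theorem par_symm {G : GlobSet.{u}} {j : ℕ} {x y : G.cell j} (h : G.AreParallel j x y) :
    G.AreParallel j y x := by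
  cases j with
  | zero => trivial
  | succ j => exact ⟨h.1.symm, h.2.symm⟩

theorem par_trans {G : GlobSet.{u}} {j : ℕ} {x y z : G.cell j} (h : G.AreParallel j x y)
    (h' : G.AreParallel j y z) : G.AreParallel j x z := by
  cases j with
  | zero => trivial
  | succ j => exact ⟨h.1.trans h'.1, h.2.trans h'.2⟩

theorem fstep (hf : Fill C) {S : Shape} {j : ℕ} (hd : S.dim ≤ j + 1)
    (x y : El (freeOn C S) (D j)) (h : (gs (freeOn C S)).AreParallel j x y) :
    (gs (freeOn C S)).Step j x y :=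
  hf j S hd (unfr x) (unfr y) (by cases j with
    | zero => trivial
    | succ j => exact h)

end GR

open GR in
theorem grp (hf : Fill C) : GrpStmt C := by
  classical
  intro n
  have hn := Nat.lt_succ_self n
  let Q := (D (n + 1)).glue n (n + 1) hn hn
  let L := C.ofShape ((D (n + 1)).inLeft n (n + 1) hn hn)
  let R := C.ofShape ((D (n + 1)).inRight n (n + 1) hn hn)
  have hh : (D (n + 1)).hinge hn = Shape.τ n := Category.comp_id (Shape.τ n)
  have w : ∀ (Y : C.GlobModel) (z : El Y Q), (gs Y).tgt n (Y.act L z) = (gs Y).src n (Y.act R z) :=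
    fun Y z => (act_comp Y _ _ z).symm.trans (Eq.trans (by rw [← hh, glue_w]; rfl)
      (act_comp Y _ _ z))
  have ex : ∀ (Y : C.GlobModel) (π γ : El Y (D (n + 1))), (gs Y).tgt n π = (gs Y).src n γ →
      ∃ z : El Y Q, Y.act L z = π ∧ Y.act R z = γ := fun Y π γ h =>
    el_glue Y _ n (n + 1) hn hn π γ (by rw [hh]; exact h)
  obtain ⟨iv, i1, i2⟩ := fstep hf (S := D (n + 1)) le_rfl _ _
    (par_symm (Pt.par_src_tgt (gs (freeOn C (D (n + 1)))) n (fr (C.one _))))
  let o : El (freeOn C Q) Q := fr (C.one Q)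
  obtain ⟨cm, c1, c2⟩ := fstep hf (S := Q) (max_self _).le _ _
    (par_trans (Pt.par_src_tgt (gs (freeOn C Q)) n ((freeOn C Q).act L o))
      (w _ o ▸ Pt.par_src_tgt (gs (freeOn C Q)) n ((freeOn C Q).act R o)))
  have sa : ∀ {X Y : C.GlobModel} (f : X ⟶ Y) (x : El X (D (n + 1))),
      (gs Y).src n (ap f x) = ap f ((gs X).src n x) := fun f x => ((gm f).app_src n x).symm
  have ta : ∀ {X Y : C.GlobModel} (f : X ⟶ Y) (x : El X (D (n + 1))),
      (gs Y).tgt n (ap f x) = ap f ((gs X).tgt n x) := fun f x => ((gm f).app_tgt n x).symm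
  let G : ∀ Y : C.GlobModel, El Y (D (n + 1)) → El Y (D (n + 1)) → El Y (D (n + 1)) :=
    fun Y π γ => if h : ∃ z : El Y Q, Y.act L z = π ∧ Y.act R z = γ then ap (cl h.choose) cm else π
  have hG : ∀ Y (z : El Y Q), G Y (Y.act L z) (Y.act R z) = ap (cl z) cm := fun Y z => by
    have h : ∃ z' : El Y Q, Y.act L z' = Y.act L z ∧ Y.act R z' = Y.act R z := ⟨z, rfl, rfl⟩
    exact (dif_pos h).trans (by
      rw [el_glue_ext Y _ n (n + 1) hn hn h.choose_spec.1 h.choose_spec.2])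
  have G1 : ∀ Y π γ, (gs Y).tgt n π = (gs Y).src n γ →
      (gs Y).src n (G Y π γ) = (gs Y).src n π ∧ (gs Y).tgt n (G Y π γ) = (gs Y).tgt n γ := by
    intro Y π γ h
    obtain ⟨z, rfl, rfl⟩ := ex Y π γ h
    rw [hG, sa, ta, c1, c2, ← sa, ← ta, ap_act, ap_act, ap_cl_one]
    exact ⟨rfl, rfl⟩
  have G2 : ∀ (Y Z : C.GlobModel) (f : Y ⟶ Z) π γ, (gs Y).tgt n π = (gs Y).src n γ →
      ap f (G Y π γ) = G Z (ap f π) (ap f γ) := by
    intro Y Z f π γ h
    obtain ⟨z, rfl, rfl⟩ := ex Y π γ h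
    rw [ap_act, ap_act, hG, hG]
    exact ap_act f (unfr cm) z
  have I1 : ∀ (Y : C.GlobModel) (π : El Y (D (n + 1))),
      (gs Y).src n (ap (cl π) iv) = (gs Y).tgt n π := fun Y π => by
    rw [sa, i1, ← ta, ap_cl_one]
  have I2 : ∀ (Y : C.GlobModel) (π : El Y (D (n + 1))),
      (gs Y).tgt n (ap (cl π) iv) = (gs Y).src n π := fun Y π => by
    rw [ta, i2, ← sa, ap_cl_one]
  have F1 : ∀ (Y : C.GlobModel) π δ, (gs Y).src n π = (gs Y).src n δ →
      (gs Y).src n (G Y (ap (cl π) iv) δ) = (gs Y).tgt n π ∧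
        (gs Y).tgt n (G Y (ap (cl π) iv) δ) = (gs Y).tgt n δ := fun Y π δ h =>
    (G1 Y _ δ ((I2 Y π).trans h)).imp_left fun e => e.trans (I1 Y π)
  have F2 : ∀ (Y Z : C.GlobModel) (f : Y ⟶ Z) π δ, (gs Y).src n π = (gs Y).src n δ →
      ap f (G Y (ap (cl π) iv) δ) = G Z (ap (cl (ap f π)) iv) (ap f δ) := fun Y Z f π δ h =>
    (G2 Y Z f _ δ ((I2 Y π).trans h)).trans
      (congrArg (fun t => G Z t (ap f δ)) (ap_act f (unfr iv) π))
  refine ⟨fun Y π δ => G Y (ap (cl π) iv) δ, G, G1, F1, F2, fun Y π γ h => ?_⟩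
  obtain ⟨z, rfl, rfl⟩ := ex Y π γ h
  have h1 := G1 _ _ _ (w _ o)
  have h2 := F1 _ _ _ h1.1.symm
  obtain ⟨c, e1, e2⟩ := fstep hf (S := Q) (j := n + 1) ((max_self _).le.trans (Nat.le_succ _)) _ _
    ⟨(h2.1.trans (w _ o)).symm, (h2.2.trans h1.2).symm⟩
  refine ⟨ap (cl z) c, ((gm (cl z)).app_src _ c).symm.trans ?_,
    ((gm (cl z)).app_tgt _ c).symm.trans ?_⟩
  · exact (congrArg (ap (cl z)) e1).trans (by rw [ap_act, ap_cl_one])
  · refine (congrArg (ap (cl z)) e2).trans ?_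
    rw [F2 _ _ _ _ _ h1.1.symm, G2 _ _ _ _ _ (w _ o), ap_act, ap_act, ap_cl_one]

end Crest.Agent.R248
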