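import Crest.Agent.R248.Defs

/-! Row 248: inserting a globe into a shape. -/

namespace Crest.Agent.R248
open CategoryTheory CategoryTheory.Limits Opposite
open Crest.GeometryTopology.Coherator Crest.GeometryTopology.Coherator.GlobTheory
open Crest.GeometryTopology.Coherator.GlobTheory.GlobModel
universe u

namespace IN

theorem face_comp {b j k : ℕ} (l : b < j) (l' : b < k) (x : Bool) (u : D j ⟶ D k) :
    Shape.faceMap l x ≫ u = Shape.faceMap l' x := by
  rcases globe_cases u with ⟨rfl, rfl⟩ | ⟨h, y, rfl⟩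
  · simp
  · exact face_face _ _ _ _

theorem par_refl {S : Shape} {n : ℕ} (u : D n ⟶ S) : ParSh n u u := by
  cases n
  · trivial
  · exact ⟨rfl, rfl⟩

theorem par_trans {S : Shape} {n : ℕ} {u v w : D n ⟶ S} (h : ParSh n u v) (h' : ParSh n v w) :
    ParSh n u w := by
  cases n
  · trivial
  · exact ⟨h.1.trans h'.1, h.2.trans h'.2⟩

theorem par_comp {S T : Shape} {n : ℕ} {u v : D n ⟶ S} (h : ParSh n u v) (f : S ⟶ T) :
    ParSh n (u ≫ f) (v ≫ f) := by
  cases n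
  · trivial
  · exact ⟨by rw [← Category.assoc, h.1, Category.assoc],
      by rw [← Category.assoc, h.2, Category.assoc]⟩

theorem par_globe {n k : ℕ} (u v : D n ⟶ D k) : ParSh n u v := by
  cases n
  · trivial
  · have l := globe_le u
    exact ⟨(face_comp _ l _ u).trans (face_comp _ l _ v).symm,
      (face_comp _ l _ u).trans (face_comp _ l _ v).symm⟩

/-- `S'` is obtained from `S` by freely adding a cell `γ` with source `u'` -/
structure Ext {S S' : Shape} {n : ℕ} (ι : S ⟶ S') (u' : D n ⟶ S) (γ : D (n + 1) ⟶ S') : Prop where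
  w : Shape.σ n ≫ γ = u' ≫ ι
  ex : ∀ (G : GlobSet.{u}) (p : Pt G S) (c : G.cell (n + 1)), G.src n c = p.app n u' →
    ∃ q : Pt G S', q.pull ι = p ∧ q.app (n + 1) γ = c
  un : ∀ (G : GlobSet.{u}) (q q' : Pt G S'), q.pull ι = q'.pull ι →
    q.app (n + 1) γ = q'.app (n + 1) γ → q = q'

theorem ch_face {G : GlobSet.{u}} {S : Shape} {n : ℕ} {p : Pt G S} {u : D n ⟶ S}
    {c : G.cell (n + 1)} (h : G.src n c = p.app n u) :
    (Pt.ch c).pull (Shape.σ n) = p.pull u := by rw [← Pt.ch_src, h, Pt.ch_app]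

theorem pull_top {G : GlobSet.{u}} {S : Shape} {n : ℕ} {q q' : Pt G S} {u : D n ⟶ S}
    (h : q.app n u = q'.app n u) : q.pull u = q'.pull u := by rw [← Pt.ch_app, h, Pt.ch_app]

theorem app_top {G : GlobSet.{u}} {S : Shape} {n : ℕ} {q : Pt G S} {u : D n ⟶ S} {c : G.cell n}
    (h : q.pull u = Pt.ch c) : q.app n u = c := by
  rw [← Pt.ch_id c, ← h, Pt.pull_app, Category.id_comp]

theorem ext_globe (n : ℕ) : Ext.{u} (Shape.σ n) (𝟙 _) (𝟙 _) :=
  ⟨by simp, fun G p c h => ⟨Pt.ch c, (ch_face h).trans p.pull_id, Pt.ch_id c⟩,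
    fun G q q' _ h => Pt.globe_ext h⟩

theorem ext_hinge (S : Shape) {n : ℕ} (l : n < S.last) :
    Ext.{u} (S.inLeft n (n + 1) l n.lt_succ_self) (S.hinge l)
      (S.inRight n (n + 1) l n.lt_succ_self) :=
  ⟨(glue_w S n (n + 1) l n.lt_succ_self).symm, fun G p c h => by
    obtain ⟨q, h1, h2⟩ := Pt.glue_ex S n (n + 1) l n.lt_succ_self p (Pt.ch c) (ch_face h).symm
    exact ⟨q, h1, app_top h2⟩, fun G q q' h h' => Pt.glue_ext _ _ _ _ _ h (pull_top h')⟩

theorem ext_last (P : Shape) (b n : ℕ) (hb : b < P.last) (hn : b < n) :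
    ∃ ι : P.glue b n hb hn ⟶ P.glue b (n + 1) hb (by omega),
      Ext.{u} ι (P.inRight b n hb hn) (P.inRight b (n + 1) hb (by omega)) := by
  have hn' : b < n + 1 := by omega
  have e : Shape.faceMap hn false ≫ Shape.σ n = Shape.faceMap hn' false := face_face _ _ _ _
  obtain ⟨ι, i1, i2⟩ := glue_desc P b n hb hn (P.inLeft b (n + 1) hb hn')
    (Shape.σ n ≫ P.inRight b (n + 1) hb hn') (by rw [glue_w, ← Category.assoc, e])
  refine ⟨ι, i2.symm, fun G p c h => ?_, fun G q q' h h' => ?_⟩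
  · obtain ⟨q, h1, h2⟩ := Pt.glue_ex P b (n + 1) hb hn' (p.pull (P.inLeft b n hb hn)) (Pt.ch c) (by
      rw [← e, Pt.pull_comp, ch_face h, ← Pt.pull_comp, ← Pt.pull_comp, glue_w])
    refine ⟨q, Pt.glue_ext _ _ _ _ _ ?_ ?_, app_top h2⟩
    · rw [← Pt.pull_comp, i1, h1]
    · rw [← Pt.pull_comp, i2, Pt.pull_comp, h2, ch_face h]
  · refine Pt.glue_ext _ _ _ _ _ ?_ (pull_top h')
    rw [← i1, Pt.pull_comp, Pt.pull_comp, h]

theorem ext_glue {P P' : Shape} {n : ℕ} {ι : P ⟶ P'} {u' : D n ⟶ P} {γ : D (n + 1) ⟶ P'}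
    (E : Ext.{u} ι u' γ) (b h : ℕ) (hb : b < P.last) (hb' : b < P'.last) (hh : b < h)
    (e : P.hinge hb ≫ ι = P'.hinge hb') : ∃ ι' : P.glue b h hb hh ⟶ P'.glue b h hb' hh,
      P.inRight b h hb hh ≫ ι' = P'.inRight b h hb' hh ∧
      Ext.{u} ι' (u' ≫ P.inLeft b h hb hh) (γ ≫ P'.inLeft b h hb' hh) := by
  obtain ⟨ι', i1, i2⟩ := glue_desc P b h hb hh (ι ≫ P'.inLeft b h hb' hh)
    (P'.inRight b h hb' hh) (by rw [← Category.assoc, e, glue_w])
  refine ⟨ι', i2, by rw [Category.assoc, i1, ← Category.assoc, E.w, Category.assoc],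
    fun G p c hc => ?_, fun G q q' h1 h2 => ?_⟩
  · obtain ⟨q₀, a1, a2⟩ := E.ex G (p.pull (P.inLeft b h hb hh)) c hc
    obtain ⟨q, h1, h2⟩ := Pt.glue_ex P' b h hb' hh q₀ (p.pull (P.inRight b h hb hh)) (by
      rw [← e, Pt.pull_comp, a1, ← Pt.pull_comp, ← Pt.pull_comp, glue_w])
    refine ⟨q, Pt.glue_ext _ _ _ _ _ ?_ ?_, by rw [← Pt.pull_app, h1, a2]⟩
    · rw [← Pt.pull_comp, i1, Pt.pull_comp, h1, a1]
    · rw [← Pt.pull_comp, i2, h2]
  · refine Pt.glue_ext _ _ _ _ _ (E.un G _ _ ?_ h2) ?_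
    · rw [← Pt.pull_comp, ← Pt.pull_comp, ← i1, Pt.pull_comp, Pt.pull_comp, h1]
    · rw [← i2, Pt.pull_comp, Pt.pull_comp, h1]

/-- the conclusion, with compatibility of the hinges below `m` -/
def Good {S : Shape} {n : ℕ} (u : D n ⟶ S) (m : ℕ) : Prop :=
  ∃ (S' : Shape) (ι : S ⟶ S') (u' : D n ⟶ S) (γ : D (n + 1) ⟶ S'), ParSh n u' u ∧
    Ext.{u} ι u' γ ∧ ∀ b (hb : b < S.last), b < m → ∃ hb' : b < S'.last,
      S.hinge hb ≫ ι = S'.hinge hb'

theorem direct {S : Shape} {n : ℕ} {u : D n ⟶ S} (v : D n ⟶ D S.last)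
    (h : ParSh n (v ≫ apx S) u) : Good.{u} u n := by
  rcases (globe_le v).eq_or_lt with e | l
  · induction S using shape_ind with
    | h0 m =>
      obtain rfl : n = m := e
      exact ⟨_, _, _, _, par_globe _ _, ext_globe n, fun b hb _ =>
        ⟨Nat.lt_succ_of_lt hb, (congrArg (· ≫ Shape.σ n) (Category.comp_id _)).trans
          ((face_face _ _ _ _).trans (Category.comp_id _).symm)⟩⟩
    | h1 P b m hb hh _ =>
      obtain rfl : n = m := e
      obtain ⟨ι, E⟩ := ext_last P b n hb hh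
      rw [globe_endo v] at h
      refine ⟨_, ι, _, _, (Category.id_comp (P.inRight b n hb hh)) ▸ h, E, fun c hc l =>
        ⟨Nat.lt_succ_of_lt l, ?_⟩⟩
      show (Shape.faceMap l true ≫ P.inRight b n hb hh) ≫ ι =
        Shape.faceMap (Nat.lt_succ_of_lt l) true ≫ P.inRight b (n + 1) hb _
      rw [Category.assoc, ← E.w, ← Category.assoc, σ_eq, face_face]
  · refine ⟨_, _, _, _, par_trans (par_comp (par_globe _ v) _) h, ext_hinge S l, fun c hc l' =>
      ⟨Nat.lt_succ_of_lt l', ?_⟩⟩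
    show _ = Shape.faceMap (Nat.lt_succ_of_lt l') true ≫ S.inRight n (n + 1) l _
    rw [← face_face l' n.lt_succ_self true false, Category.assoc, ← glue_w, hinge_eq, hinge_eq,
      ← face_face l' l true true]
    simp only [Category.assoc]

theorem main {n : ℕ} (S : Shape) (u : D n ⟶ S) :
    (∃ v : D n ⟶ D S.last, ParSh n (v ≫ apx S) u) ∨ Good.{u} u S.last := by
  induction S using shape_ind with
  | h0 m => exact Or.inl ⟨u, par_globe _ _⟩
  | h1 P b h hb hh ih =>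
    rcases glue_cells P b h hb hh u with ⟨u, rfl⟩ | ⟨v, rfl⟩
    swap
    · exact Or.inl ⟨v, par_refl _⟩
    have key : ∀ m, b < m → Good.{u} u m → Good.{u} (u ≫ P.inLeft b h hb hh) h := by
      rintro m hm ⟨P', ι, u', γ, h1, E, h2⟩
      obtain ⟨hb', e⟩ := h2 b hb hm
      obtain ⟨ι', i, E'⟩ := ext_glue E b h hb hb' hh e
      exact ⟨_, ι', _, _, par_comp h1 _, E', fun c hc l =>
        ⟨l, (Category.assoc (Shape.faceMap l true) _ _).trans (congrArg (_ ≫ ·) i)⟩⟩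
    rcases ih u with ⟨v, hv⟩ | H
    · rcases lt_or_ge b n with l | l
      · exact Or.inr (key n l (direct v hv))
      · obtain ⟨w⟩ : Nonempty (D n ⟶ D b) := by
          rcases l.eq_or_lt with rfl | l'
          · exact ⟨𝟙 _⟩
          · exact ⟨Shape.faceMap l' true⟩
        refine Or.inl ⟨w ≫ Shape.faceMap hh false, par_trans ?_ (par_comp hv _)⟩
        show ParSh n ((w ≫ Shape.faceMap hh false) ≫ P.inRight b h hb hh) _
        rw [Category.assoc, ← glue_w, hinge_eq, ← Category.assoc, ← Category.assoc]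
        exact par_comp (par_comp (par_globe _ _) _) _
    · exact Or.inr (key _ hb H)

end IN

theorem ins : InsStmt.{u} := by
  intro S n u
  obtain ⟨m, S', ι, u', γ, h1, E, -⟩ : ∃ m, IN.Good.{u} u m := by
    rcases IN.main S u with ⟨v, hv⟩ | H
    · exact ⟨_, IN.direct v hv⟩
    · exact ⟨_, H⟩
  refine ⟨S', ι, u', γ, h1, E.w, fun G p c h => ?_⟩
  obtain ⟨q, a1, a2⟩ := E.ex G p c h
  exact ⟨q, ⟨a1, a2⟩, fun q' h' => E.un G _ _ (h'.1.trans a1.symm) (h'.2.trans a2.symm)⟩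

end Crest.Agent.R248
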