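import Crest.Agent.R248.Basic

/-! Row 248: elements of models, points of globular sets. -/

namespace Crest.Agent.R248
open CategoryTheory CategoryTheory.Limits Opposite
open Crest.GeometryTopology.Coherator Crest.GeometryTopology.Coherator.GlobTheory
open Crest.GeometryTopology.Coherator.GlobTheory.GlobModel
universe u

variable {C : GlobTheory.{u}}

/-- elements of a model at a shape; `El Y (D j)` is definitionally `Y.cells.cell j`, and
`El (freeOn C T) S` is definitionally `C.arr S T`. -/
abbrev El (Y : C.GlobModel) (S : Shape) : Type u := Y.functor.obj (op (⟨S⟩ : C.Ob))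

/-- a map of models acts on elements -/
def ap {X Y : C.GlobModel} (f : X ⟶ Y) {S : Shape} (x : El X S) : El Y S :=
  (show X.functor ⟶ Y.functor from f).app (op (⟨S⟩ : C.Ob)) x

theorem act_one (Y : C.GlobModel) {S : Shape} (x : El Y S) : Y.act (C.one S) x = x :=
  types_congr_hom (Y.functor.map_id (op (⟨S⟩ : C.Ob))) x
theorem act_seq (Y : C.GlobModel) {R S T : Shape} (f : C.arr R S) (g : C.arr S T) (x : El Y T) :
    Y.act (C.seq f g) x = Y.act f (Y.act g x) :=
  types_congr_hom (Y.functor.map_comp
    (Quiver.Hom.op (X := (⟨S⟩ : C.Ob)) (Y := (⟨T⟩ : C.Ob)) g)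
    (Quiver.Hom.op (X := (⟨R⟩ : C.Ob)) (Y := (⟨S⟩ : C.Ob)) f)) x
theorem act_id (Y : C.GlobModel) {S : Shape} (x : El Y S) : Y.act (C.ofShape (𝟙 S)) x = x := by
  rw [C.ofShape_id, act_one]
theorem act_comp (Y : C.GlobModel) {R S T : Shape} (f : R ⟶ S) (g : S ⟶ T) (x : El Y T) :
    Y.act (C.ofShape (f ≫ g)) x = Y.act (C.ofShape f) (Y.act (C.ofShape g) x) := by
  rw [C.ofShape_comp, act_seq]
theorem ap_act {X Y : C.GlobModel} (f : X ⟶ Y) {S T : Shape} (o : C.arr S T) (x : El X T) :
    ap f (X.act o x) = Y.act o (ap f x) :=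
  types_congr_hom ((show X.functor ⟶ Y.functor from f).naturality
    (Quiver.Hom.op (X := (⟨S⟩ : C.Ob)) (Y := (⟨T⟩ : C.Ob)) o)) x
@[simp] theorem ap_id {X : C.GlobModel} {S : Shape} (x : El X S) : ap (𝟙 X) x = x := rfl
@[simp] theorem ap_comp {X Y Z : C.GlobModel} (f : X ⟶ Y) (g : Y ⟶ Z) {S : Shape} (x : El X S) :
    ap (f ≫ g) x = ap g (ap f x) := rfl

/-- the underlying globular set of a model (reducible version of `Y.cells`) -/
@[reducible] noncomputable def gs (Y : C.GlobModel) : GlobSet.{u} where
  cell j := El Y (D j)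
  src j x := Y.act (C.ofShape (Shape.σ j)) x
  tgt j x := Y.act (C.ofShape (Shape.τ j)) x
  src_src j x := by rw [← act_comp, ← act_comp, σ_σ]
  tgt_tgt j x := by rw [← act_comp, ← act_comp, τ_σ]
theorem gs_eq (Y : C.GlobModel) : gs Y = Y.cells := rfl
/-- the underlying globular map of a map of models (reducible version of `cellsMap f`) -/
@[reducible] noncomputable def gm {X Y : C.GlobModel} (f : X ⟶ Y) : (gs X).Map (gs Y) where
  app _ x := ap f x
  app_src _ x := ap_act f _ x
  app_tgt _ x := ap_act f _ x
theorem gm_eq {X Y : C.GlobModel} (f : X ⟶ Y) : gm f = cellsMap f := rfl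

theorem hom_ext {X Y : C.GlobModel} {f g : X ⟶ Y}
    (h : ∀ (S : Shape) (x : El X S), ap f x = ap g x) : f = g := by
  apply NatTrans.ext
  funext S
  ext x
  exact h S.unop.shape x

/-- build a map of models from a family of functions commuting with the operations -/
def mkHom {X Y : C.GlobModel} (f : ∀ S : Shape, El X S → El Y S)
    (h : ∀ {S T : Shape} (o : C.arr S T) (x : El X T), f S (X.act o x) = Y.act o (f T x)) :
    X ⟶ Y :=
  show X.functor ⟶ Y.functor from
    { app := fun S => TypeCat.ofHom (f S.unop.shape)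
      naturality := fun S T o => by
        ext x
        exact h (S := T.unop.shape) (T := S.unop.shape) o.unop x }
@[simp] theorem ap_mkHom {X Y : C.GlobModel} (f : ∀ S : Shape, El X S → El Y S) (h) {S : Shape}
    (x : El X S) : ap (mkHom f h) x = f S x := rfl

/-- an operation as an element of a representable model (definitionally the identity) -/
def fr {S T : Shape} (o : C.arr T S) : El (freeOn C S) T := o
/-- an element of a representable model as an operation (definitionally the identity) -/
def unfr {S T : Shape} (x : El (freeOn C S) T) : C.arr T S := x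
@[simp] theorem fr_unfr {S T : Shape} (x : El (freeOn C S) T) : fr (unfr x) = x := rfl
@[simp] theorem unfr_fr {S T : Shape} (o : C.arr T S) : unfr (fr o) = o := rfl
theorem fr_inj {S T : Shape} {o o' : C.arr T S} : fr o = fr o' ↔ o = o' := Iff.rfl
theorem act_fr {R S T : Shape} (o : C.arr R S) (x : C.arr S T) :
    (freeOn C T).act o (fr x) = fr (C.seq o x) := rfl

/-- Yoneda: the map out of a representable model classifying an element -/
noncomputable def cl {Y : C.GlobModel} {S : Shape} (y : El Y S) : freeOn C S ⟶ Y :=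
  mkHom (fun _ o => Y.act (unfr o) y) (fun o x => act_seq Y o (unfr x) y)
theorem ap_cl {Y : C.GlobModel} {S T : Shape} (y : El Y S) (o : C.arr T S) :
    ap (cl y) (fr o) = Y.act o y := rfl
theorem ap_cl_one {Y : C.GlobModel} {S : Shape} (y : El Y S) :
    ap (cl y) (fr (C.one S)) = y := act_one Y y
theorem ap_fr {Y : C.GlobModel} {S T : Shape} (f : freeOn C S ⟶ Y) (o : C.arr T S) :
    ap f (fr o) = Y.act o (ap f (fr (C.one S))) := by
  rw [← ap_act, act_fr, C.seq_one]
theorem free_hom_ext {Y : C.GlobModel} {S : Shape} {f g : freeOn C S ⟶ Y}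
    (h : ap f (fr (C.one S)) = ap g (fr (C.one S))) : f = g :=
  hom_ext fun _ x => by rw [← fr_unfr x, ap_fr f, ap_fr g, h]

/-- elements of a model on a glued shape: existence -/
theorem el_glue (Y : C.GlobModel) (S : Shape) (b h : ℕ) (hb : b < S.last) (hh : b < h)
    (x : El Y S) (y : El Y (D h))
    (w : Y.act (C.ofShape (S.hinge hb)) x = Y.act (C.ofShape (Shape.faceMap hh false)) y) :
    ∃ z : El Y (S.glue b h hb hh), Y.act (C.ofShape (S.inLeft b h hb hh)) z = x ∧
      Y.act (C.ofShape (S.inRight b h hb hh)) z = y :=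
  Types.exists_of_isPullback (Y.sums S b h hb hh) x y w

/-- elements of a model on a glued shape: uniqueness -/
theorem el_glue_ext (Y : C.GlobModel) (S : Shape) (b h : ℕ) (hb : b < S.last) (hh : b < h)
    {z z' : El Y (S.glue b h hb hh)}
    (h1 : Y.act (C.ofShape (S.inLeft b h hb hh)) z = Y.act (C.ofShape (S.inLeft b h hb hh)) z')
    (h2 : Y.act (C.ofShape (S.inRight b h hb hh)) z = Y.act (C.ofShape (S.inRight b h hb hh)) z') :
    z = z' :=
  Types.ext_of_isPullback (Y.sums S b h hb hh) h1 h2

/-- an element of a model is determined by its cells -/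
theorem el_ext (Y : C.GlobModel) {S : Shape} {x y : El Y S}
    (h : ∀ (j : ℕ) (u : D j ⟶ S), Y.act (C.ofShape u) x = Y.act (C.ofShape u) y) : x = y := by
  induction S using shape_ind with
  | h0 n => simpa only [act_id] using h n (𝟙 _)
  | h1 S b k hb hk ih =>
    refine el_glue_ext Y S b k hb hk (ih fun j u => ?_) (h _ _)
    rw [← act_comp, ← act_comp]
    exact h _ _

/-- build a model from an action of the operations with the gluing property -/
def mkModel (F : Shape → Type u) (act : ∀ {S T : Shape}, C.arr S T → F T → F S)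
    (act_one : ∀ (S : Shape) (x : F S), act (C.one S) x = x)
    (act_seq : ∀ {R S T : Shape} (f : C.arr R S) (g : C.arr S T) (x : F T),
      act (C.seq f g) x = act f (act g x))
    (ex : ∀ (S : Shape) (b h : ℕ) (hb : b < S.last) (hh : b < h) (x : F S) (y : F (D h)),
      act (C.ofShape (S.hinge hb)) x = act (C.ofShape (Shape.faceMap hh false)) y →
      ∃ z : F (S.glue b h hb hh), act (C.ofShape (S.inLeft b h hb hh)) z = x ∧
        act (C.ofShape (S.inRight b h hb hh)) z = y)
    (un : ∀ (S : Shape) (b h : ℕ) (hb : b < S.last) (hh : b < h) (z z' : F (S.glue b h hb hh)),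
      act (C.ofShape (S.inLeft b h hb hh)) z = act (C.ofShape (S.inLeft b h hb hh)) z' →
      act (C.ofShape (S.inRight b h hb hh)) z = act (C.ofShape (S.inRight b h hb hh)) z' →
      z = z') : C.GlobModel where
  functor :=
    { obj := fun S => F S.unop.shape
      map := fun o => TypeCat.ofHom (act o.unop)
      map_id := fun S => by ext x; exact act_one _ x
      map_comp := fun f g => by ext x; exact act_seq g.unop f.unop x }
  sums S b h hb hh := by
    rw [Types.isPullback_iff]
    refine ⟨?_, fun z z' hz => un S b h hb hh z z' hz.1 hz.2, fun x y w => ex S b h hb hh x y w⟩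
    ext z
    have key : ∀ z : F (S.glue b h hb hh),
        act (C.ofShape (S.hinge hb)) (act (C.ofShape (S.inLeft b h hb hh)) z) =
        act (C.ofShape (Shape.faceMap hh false)) (act (C.ofShape (S.inRight b h hb hh)) z) := by
      intro z
      rw [← act_seq, ← act_seq, ← C.ofShape_comp, ← C.ofShape_comp, glue_w]
    exact key z
theorem mkModel_act (F : Shape → Type u) (act : ∀ {S T : Shape}, C.arr S T → F T → F S)
    (h1 h2 h3 h4) {S T : Shape} (o : C.arr S T) (x : F T) :
    (mkModel F act h1 h2 h3 h4).act o x = act o x := rfl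

end Crest.Agent.R248
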