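import Crest.Agent.R248.Tower
import Crest.Agent.R248.Fin

/-! Row 248: the operations of the coherator act on cylinders. -/

namespace Crest.Agent.R248
open CategoryTheory CategoryTheory.Limits Opposite
open Crest.GeometryTopology.Coherator Crest.GeometryTopology.Coherator.GlobTheory
open Crest.GeometryTopology.Coherator.GlobTheory.GlobModel
universe u

variable {C : GlobTheory.{u}}

namespace Sys
variable {n k l : ℕ} (Sy : Sys C n k l) {R S T U : Shape} {Y Z : C.GlobModel}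

/-- classifying map of a point -/
noncomputable def cls (p : Pt (Sy.G Y) S) : Sy.K S ⟶ Y := (Sy.rep S Y p).exists.choose
theorem cls_spec (p : Pt (Sy.G Y) S) : (Sy.univ S).push (Sy.map (Sy.cls p)) = p :=
  (Sy.rep S Y p).exists.choose_spec
theorem cls_uniq {p : Pt (Sy.G Y) S} {f : Sy.K S ⟶ Y} (h : (Sy.univ S).push (Sy.map f) = p) :
    Sy.cls p = f := (Sy.rep S Y p).unique (Sy.cls_spec p) h
theorem push_push {X : C.GlobModel} (p : Pt (Sy.G X) S) (f : X ⟶ Y) (g : Y ⟶ Z) :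
    (p.push (Sy.map f)).push (Sy.map g) = p.push (Sy.map (f ≫ g)) := by
  ext j w; exact (Sy.map_comp f g j _).symm
theorem push_id (p : Pt (Sy.G Y) S) : p.push (Sy.map (𝟙 Y)) = p := by
  ext j w; exact Sy.map_id Y j _

/-- action of a point of the corepresenting object -/
noncomputable def ac (x : Pt (Sy.G (Sy.K T)) S) (p : Pt (Sy.G Y) T) : Pt (Sy.G Y) S :=
  x.push (Sy.map (Sy.cls p))
theorem ac_univ_left (p : Pt (Sy.G Y) T) : Sy.ac (Sy.univ T) p = p := Sy.cls_spec p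
theorem ac_univ_right (x : Pt (Sy.G (Sy.K T)) S) : Sy.ac x (Sy.univ T) = x := by
  rw [ac, Sy.cls_uniq (Sy.push_id _), push_id]
theorem ac_ac (x : Pt (Sy.G (Sy.K S)) R) (x' : Pt (Sy.G (Sy.K T)) S) (p : Pt (Sy.G Y) T) :
    Sy.ac (Sy.ac x x') p = Sy.ac x (Sy.ac x' p) := by
  unfold ac
  rw [push_push, Sy.cls_uniq (f := Sy.cls x' ≫ Sy.cls p) (by rw [← push_push, cls_spec])]
theorem ac_pull (f : R ⟶ S) (x : Pt (Sy.G (Sy.K T)) S) (p : Pt (Sy.G Y) T) :
    Sy.ac (x.pull f) p = (Sy.ac x p).pull f := rfl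

/-- the compatibility conditions at one cell -/
structure At (φ : C.arr S T) (x : Pt (Sy.G (Sy.K T)) S) (m : ℕ) (u : D m ⟶ S) : Prop where
  top : ∀ (Y : C.GlobModel) (p : Pt (Sy.G Y) T) (y : El Y T), pts y = p.push (Sy.top Y) →
    Y.act (C.ofShape u) (Y.act φ y) = (Sy.top Y).app m ((Sy.ac x p).app m u)
  condC : m ≤ k → ∀ (Y : C.GlobModel) (p : Pt (Sy.G Y) T) (y : El Y T),
    (∀ m ≤ k, ∀ u : D m ⟶ T, Sy.bot Y m (p.app m u) = Y.act (C.ofShape u) y) →
    Sy.bot Y m ((Sy.ac x p).app m u) = Y.act (C.ofShape u) (Y.act φ y)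
  condR : m ≤ k → ∀ (Y : C.GlobModel) (p q : Pt (Sy.G Y) T),
    (∀ m ≤ k, ∀ u : D m ⟶ T, Sy.bot Y m (p.app m u) = Sy.bot Y m (q.app m u)) →
    Sy.bot Y m ((Sy.ac x p).app m u) = Sy.bot Y m ((Sy.ac x q).app m u)

variable {Sy}

theorem At.of_pull {φ : C.arr S T} {x : Pt (Sy.G (Sy.K T)) S} {m : ℕ} {v : D m ⟶ R} {f : R ⟶ S}
    (h : Sy.At (C.seq (C.ofShape f) φ) (x.pull f) m v) : Sy.At φ x m (v ≫ f) :=
  ⟨fun Y p y hy => by
      rw [act_comp, ← act_seq Y _ φ]; exact h.top Y p y hy,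
    fun hm Y p y hy => by
      rw [act_comp, ← act_seq Y _ φ]; exact h.condC hm Y p y hy,
    fun hm Y p q hy => h.condR hm Y p q hy⟩

theorem At.shape (f : S ⟶ T) (m : ℕ) (u : D m ⟶ S) :
    Sy.At (C.ofShape f) ((Sy.univ T).pull f) m u :=
  ⟨fun Y p y hy => by
      rw [ac_pull, ac_univ_left, ← act_comp]
      exact congrArg (fun r : Pt (gs Y) T => r.app m (u ≫ f)) hy,
    fun hm Y p y hy => by rw [ac_pull, ac_univ_left, ← act_comp]; exact hy m hm _,
    fun hm Y p q hy => by rw [ac_pull, ac_pull, ac_univ_left, ac_univ_left]; exact hy m hm _⟩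

theorem At.seq {φ : C.arr R S} {x : Pt (Sy.G (Sy.K S)) R} {ψ : C.arr S T}
    {x' : Pt (Sy.G (Sy.K T)) S} {m : ℕ} {u : D m ⟶ R} (h : Sy.At φ x m u)
    (h' : ∀ m u, Sy.At ψ x' m u) : Sy.At (C.seq φ ψ) (Sy.ac x x') m u :=
  ⟨fun Y p y hy => by
      rw [ac_ac, act_seq]
      exact h.top Y _ _ (Pt.ext (funext fun j => funext fun w => (h' j w).top Y p y hy)),
    fun hm Y p y hy => by
      rw [ac_ac, act_seq]
      exact h.condC hm Y _ _ fun j hj w => (h' j w).condC hj Y p y hy,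
    fun hm Y p q hy => by
      rw [ac_ac, ac_ac]
      exact h.condR hm Y _ _ fun j hj w => (h' j w).condR hj Y p q hy⟩

variable (Sy)

/-- the theory of operations together with an action on cylinders -/
noncomputable def pre : PreTheory.{u} where
  arr S T := {a : C.arr S T × Pt (Sy.G (Sy.K T)) S // ∀ m u, Sy.At a.1 a.2 m u}
  one S := ⟨(C.one S, Sy.univ S), fun m u => by
    simpa only [C.ofShape_id, Pt.pull_id] using At.shape (Sy := Sy) (𝟙 S) m u⟩
  seq f g := ⟨(C.seq f.1.1 g.1.1, Sy.ac f.1.2 g.1.2), fun m u => (f.2 m u).seq g.2⟩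
  one_seq f := Subtype.ext (Prod.ext (C.one_seq _) (Sy.ac_univ_left _))
  seq_one f := Subtype.ext (Prod.ext (C.seq_one _) (Sy.ac_univ_right _))
  seq_assoc f g h := Subtype.ext (Prod.ext (C.seq_assoc _ _ _) (Sy.ac_ac _ _ _))
  ofShape f := ⟨(C.ofShape f, (Sy.univ _).pull f), At.shape f⟩
  ofShape_id S := Subtype.ext (Prod.ext (C.ofShape_id S) (Pt.pull_id _))
  ofShape_comp f g := Subtype.ext (Prod.ext (C.ofShape_comp f g) (by
    change Pt.pull (f ≫ g) _ = Sy.ac (Pt.pull f _) (Pt.pull g _)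
    rw [ac_pull, ac_univ_left, Pt.pull_comp]))

theorem pre_shape (f : R ⟶ S) (a : Sy.pre.arr S T) :
    (Sy.pre.seq (Sy.pre.ofShape f) a).1 = (C.seq (C.ofShape f) a.1.1, a.1.2.pull f) := by
  change (_, Sy.ac (Pt.pull f _) _) = _
  rw [ac_pull, ac_univ_left]
  rfl

/-- the theory of operations together with an action on cylinders -/
noncomputable def thy : GlobTheory.{u} := ⟨Sy.pre, respects_of Sy.pre
  (fun S b h hb hh T f g w => by
    have w' := congrArg Subtype.val w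
    rw [pre_shape, pre_shape, Prod.mk.injEq] at w'
    obtain ⟨φ, k1, k2⟩ := arr_glue C S b h hb hh T f.1.1 g.1.1 w'.1
    obtain ⟨x, x1, x2⟩ := Pt.glue_ex S b h hb hh f.1.2 g.1.2 w'.2
    refine ⟨⟨(φ, x), fun m u => ?_⟩, Subtype.ext ?_, Subtype.ext ?_⟩
    · rcases glue_cells S b h hb hh u with ⟨v, rfl⟩ | ⟨v, rfl⟩
      · exact At.of_pull (by simpa only [k1, x1] using f.2 m v)
      · exact At.of_pull (by simpa only [k2, x2] using g.2 m v)
    · exact (Sy.pre_shape _ _).trans (Prod.ext k1 x1)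
    · exact (Sy.pre_shape _ _).trans (Prod.ext k2 x2))
  (fun S b h hb hh T f g k1 k2 => by
    have k1' := congrArg Subtype.val k1
    have k2' := congrArg Subtype.val k2
    rw [pre_shape, pre_shape, Prod.mk.injEq] at k1' k2'
    exact Subtype.ext (Prod.ext (arr_glue_ext C S b h hb hh T _ _ k1'.1 k2'.1)
      (Pt.glue_ext S b h hb hh k1'.2 k2'.2)))⟩

/-- the bottom of a point on a shape of small height -/
theorem ex_bot (p : Pt (Sy.G Y) S) (hS : S.dim < l) :
    ∃ y : El Y S, ∀ (m : ℕ) (u : D m ⟶ S), Sy.bot Y m (p.app m u) = Y.act (C.ofShape u) y := by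
  obtain ⟨y, hy⟩ := pts_surj (Y := Y) (S := S) ⟨fun m u => Sy.bot Y m (p.app m u),
    fun j w => by rw [p.app_src, Sy.bot_src Y j ((cell_le_dim w).trans_lt hS)],
    fun j w => by rw [p.app_tgt, Sy.bot_tgt Y j ((cell_le_dim w).trans_lt hS)]⟩
  exact ⟨y, fun m u => (congrArg (fun r : Pt (gs Y) S => r.app m u) hy).symm⟩

theorem lift (hk : k < l) {j : ℕ} (hd : S.dim ≤ j + 1) {f g : C.arr (D j) S}
    {a b : Pt (Sy.G (Sy.K S)) (D j)} (ha : ∀ m u, Sy.At f a m u) (hb : ∀ m u, Sy.At g b m u)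
    (hp : (Sy.G (Sy.K S)).AreParallel j (a.app j (𝟙 _)) (b.app j (𝟙 _)))
    (z : C.arr (D (j + 1)) S) (hf : C.seq (C.ofShape (Shape.σ j)) z = f)
    (hg : C.seq (C.ofShape (Shape.τ j)) z = g) :
    ∃ x : Pt (Sy.G (Sy.K S)) (D (j + 1)), x.pull (Shape.σ j) = a ∧ x.pull (Shape.τ j) = b ∧
      ∀ m u, Sy.At z x m u := by
  obtain ⟨t, ht⟩ := pts_surj ((Sy.univ S).push (Sy.top _))
  have t1 : (gs (Sy.K S)).src j ((Sy.K S).act z t) = (Sy.top _).app j (a.app j (𝟙 _)) := by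
    have := (ha j (𝟙 _)).top _ _ t ht
    rw [ac_univ_right, act_id, ← hf, act_seq] at this
    exact this
  have t2 : (gs (Sy.K S)).tgt j ((Sy.K S).act z t) = (Sy.top _).app j (b.app j (𝟙 _)) := by
    have := (hb j (𝟙 _)).top _ _ t ht
    rw [ac_univ_right, act_id, ← hg, act_seq] at this
    exact this
  have key : ∃ c : (Sy.G (Sy.K S)).cell (j + 1), (Sy.G _).src j c = a.app j (𝟙 _) ∧
      (Sy.G _).tgt j c = b.app j (𝟙 _) ∧ (Sy.top _).app (j + 1) c = (Sy.K S).act z t ∧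
      (j + 1 ≤ k → ∃ e₀ : El (Sy.K S) S, (∀ (m : ℕ) (u : D m ⟶ S),
        Sy.bot _ m ((Sy.univ S).app m u) = (Sy.K S).act (C.ofShape u) e₀) ∧
        Sy.bot _ (j + 1) c = (Sy.K S).act z e₀) := by
    by_cases h1 : n ≤ j + 1 ∧ j + 1 ≤ k
    · obtain ⟨e₀, he⟩ := Sy.ex_bot (Sy.univ S) (by omega)
      have b1 := (ha j (𝟙 _)).condC (by omega) _ _ e₀ fun m _ u => he m u
      have b2 := (hb j (𝟙 _)).condC (by omega) _ _ e₀ fun m _ u => he m u
      rw [ac_univ_right, act_id, ← hf, act_seq] at b1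
      rw [ac_univ_right, act_id, ← hg, act_seq] at b2
      obtain ⟨c, c1, c2, c3, c4⟩ := Sy.fill j h1.1 (by omega) _ (Sy.contr S) _ _ hp _
        ((Sy.K S).act z e₀) t1 t2 b1.symm b2.symm
      exact ⟨c, c1, c2, c3, fun _ => ⟨e₀, he, c4⟩⟩
    · obtain ⟨c, c1, c2, c3⟩ := (Sy.triv _).succ j _ _ hp _ t1 t2
      refine ⟨c, c1, c2, c3, fun h2 => ⟨t, fun m u => ?_, ?_⟩⟩
      · rw [Sy.bot_low _ m (by have := cell_le_dim u; omega)]
        exact (congrArg (fun r : Pt (gs (Sy.K S)) S => r.app m u) ht).symm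
      · rw [Sy.bot_low _ _ (by omega), c3]
  obtain ⟨c, c1, c2, c3, c4⟩ := key
  obtain ⟨x, x0, x1, x2⟩ := Pt.fill a b c c1 c2
  refine ⟨x, x1, x2, fun m u => ?_⟩
  rcases (globe_le u).eq_or_lt with rfl | lt
  · rw [globe_endo u]
    have e1 : ∀ (Y : C.GlobModel) (p : Pt (Sy.G Y) S),
        (Sy.ac x p).app (j + 1) (𝟙 _) = (Sy.map (Sy.cls p)).app (j + 1) c := fun Y p => by
      rw [ac, Pt.push_app, x0]
    have e2 : ∀ (Y : C.GlobModel) (p : Pt (Sy.G Y) S) (m : ℕ) (u : D m ⟶ S),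
        p.app m u = (Sy.map (Sy.cls p)).app m ((Sy.univ S).app m u) := fun Y p m u =>
      (congrArg (fun r : Pt (Sy.G Y) S => r.app m u) (Sy.cls_spec p)).symm
    refine ⟨fun Y p y hy => ?_, fun hm Y p y hy => ?_, fun hm Y p q hy => ?_⟩
    · rw [e1, Sy.top_map, c3, ap_act, act_id]
      congr 1
      refine pts_inj (hy.trans ?_)
      rw [pts_ap, ht]
      ext m u
      rw [Pt.push_app, e2 Y p m u, Sy.top_map]
      rfl
    · obtain ⟨e₀, he, hc⟩ := c4 hm
      rw [e1, Sy.bot_map, hc, ap_act, act_id]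
      congr 1
      refine el_ext Y fun m u => ?_
      rw [← hy m (by have := cell_le_dim u; omega), e2 Y p m u, Sy.bot_map, he, ap_act]
    · obtain ⟨e₀, he, hc⟩ := c4 hm
      rw [e1, e1, Sy.bot_map, Sy.bot_map, hc, ap_act, ap_act]
      congr 1
      refine el_ext Y fun m u => ?_
      rw [← ap_act, ← ap_act, ← he, ← Sy.bot_map, ← Sy.bot_map, ← e2, ← e2]
      exact hy m (by have := cell_le_dim u; omega) u
  · rcases globe_succ (Nat.le_of_lt_succ lt) u with ⟨v, rfl⟩ | ⟨v, rfl⟩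
    · exact At.of_pull (by simpa only [hf, x1] using ha m v)
    · exact At.of_pull (by simpa only [hg, x2] using hb m v)

end Sys

theorem model (ht : TowerStmt C) {n k l : ℕ} (Sy : Sys C n k l) (h : k < l) :
    Nonempty (Act Sy) := by
  let π : TheoryMap Sy.thy C := ⟨fun f => f.1.1, fun _ => rfl, fun _ _ => rfl, fun _ => rfl⟩
  obtain ⟨s, hs⟩ := ht Sy.thy π (fun j S hd f g hp z hf hg => by
    obtain ⟨x, x1, x2, hx⟩ := Sy.lift h hd f.2 g.2 (by
      cases j with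
      | zero => trivial
      | succ j =>
        have h1 := congrArg (fun r => r.2.app j (𝟙 _)) ((Sy.pre_shape _ _).symm.trans
          ((congrArg Subtype.val hp.1).trans (Sy.pre_shape _ _)))
        have h2 := congrArg (fun r => r.2.app j (𝟙 _)) ((Sy.pre_shape _ _).symm.trans
          ((congrArg Subtype.val hp.2).trans (Sy.pre_shape _ _)))
        simp only [Pt.pull_app, Category.id_comp] at h1 h2
        exact ⟨by rw [← Pt.app_src, ← Pt.app_src, Category.comp_id, h1],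
          by rw [← Pt.app_tgt, ← Pt.app_tgt, Category.comp_id, h2]⟩) z hf hg
    exact ⟨⟨(z, x), hx⟩, Subtype.ext ((Sy.pre_shape _ _).trans (Prod.ext hf x1)),
      Subtype.ext ((Sy.pre_shape _ _).trans (Prod.ext hg x2)), rfl⟩)
  have hA : ∀ {S T : Shape} (o : C.arr S T) m u, Sy.At o (s.map o).1.2 m u := fun o m u => by
    have := (s.map o).2 m u
    rwa [show (s.map o).1.1 = o from hs _ _ o] at this
  exact ⟨⟨fun Y _ _ o p => Sy.ac (s.map o).1.2 p,
    fun Y _ _ _ f g p => by rw [s.map_seq]; exact Sy.ac_ac _ _ _,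
    fun Y _ _ f p => by
      rw [s.map_ofShape]
      exact (Sy.ac_pull _ _ _).trans (by rw [Sy.ac_univ_left]),
    fun Y _ _ o p y hy => Pt.ext (funext fun j => funext fun w => (hA o j w).top Y p y hy),
    fun Y _ _ o p y hy m hm u => (hA o m u).condC hm Y p y hy,
    fun Y _ _ o p q hy m hm u => (hA o m u).condR hm Y p q hy⟩⟩

end Crest.Agent.R248
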