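import Crest.Agent.R248.PathA

/-! Row 248: the path object. -/

namespace Crest.Agent.R248
open CategoryTheory CategoryTheory.Limits Opposite
open Crest.GeometryTopology.Coherator Crest.GeometryTopology.Coherator.GlobTheory
open Crest.GeometryTopology.Coherator.GlobTheory.GlobModel
universe u

variable {C : GlobTheory.{u}} {n k l : ℕ} {Sy : Sys C n k l}

namespace Act
variable (A : Act Sy) (Y : C.GlobModel)

/-- the model of cylinders -/
noncomputable def P : C.GlobModel :=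
  mkModel (Pt (Sy.G Y)) (fun o p => A.act Y o p)
    (fun S x => by rw [← C.ofShape_id, A.act_shape, Pt.pull_id]) (A.act_seq Y)
    (fun S b h hb hh x y w => by
      simp only [A.act_shape] at w ⊢
      exact Pt.glue_ex S b h hb hh x y w)
    (fun S b h hb hh z z' h1 h2 => by
      simp only [A.act_shape] at h1 h2
      exact Pt.glue_ext S b h hb hh h1 h2)

variable {Y}
/-- elements of the model of cylinders are points -/
def pt {S : Shape} (p : El (A.P Y) S) : Pt (Sy.G Y) S := p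
/-- points are elements of the model of cylinders -/
def el {S : Shape} (p : Pt (Sy.G Y) S) : El (A.P Y) S := p
theorem pt_el {S : Shape} (p : Pt (Sy.G Y) S) : A.pt (A.el p) = p := rfl
theorem pt_act {S T : Shape} (o : C.arr S T) (p : El (A.P Y) T) :
    A.pt ((A.P Y).act o p) = A.act Y o (A.pt p) := rfl
theorem pt_shape {S T : Shape} (f : S ⟶ T) (p : El (A.P Y) T) :
    A.pt ((A.P Y).act (C.ofShape f) p) = (A.pt p).pull f := A.act_shape Y f _

/-- top cell -/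
noncomputable def ev {j : ℕ} (p : El (A.P Y) (D j)) : (Sy.G Y).cell j := (A.pt p).app j (𝟙 _)
theorem ev_inj {j : ℕ} {p q : El (A.P Y) (D j)} (h : A.ev p = A.ev q) : p = q :=
  Pt.globe_ext (p := A.pt p) (q := A.pt q) h
theorem ev_ch {j : ℕ} (c : (Sy.G Y).cell j) : A.ev (A.el (Pt.ch c)) = c := Pt.ch_id c
theorem ev_shape {S : Shape} {j : ℕ} (u : D j ⟶ S) (p : El (A.P Y) S) :
    A.ev ((A.P Y).act (C.ofShape u) p) = (A.pt p).app j u := by
  rw [ev, pt_shape, Pt.pull_app, Category.id_comp]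
theorem ev_src {j : ℕ} (p : El (A.P Y) (D (j + 1))) :
    A.ev ((gs (A.P Y)).src j p) = (Sy.G Y).src j (A.ev p) :=
  (A.ev_shape _ p).trans (by rw [ev, ← Pt.app_src, Category.comp_id])
theorem ev_tgt {j : ℕ} (p : El (A.P Y) (D (j + 1))) :
    A.ev ((gs (A.P Y)).tgt j p) = (Sy.G Y).tgt j (A.ev p) :=
  (A.ev_shape _ p).trans (by rw [ev, ← Pt.app_tgt, Category.comp_id])
theorem ev_par {j : ℕ} {p q : El (A.P Y) (D j)} (h : (gs (A.P Y)).AreParallel j p q) :
    (Sy.G Y).AreParallel j (A.ev p) (A.ev q) :=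
  map_par (G := gs (A.P Y)) ⟨fun _ p => A.ev p, fun _ p => A.ev_src p, fun _ p => A.ev_tgt p⟩ h
theorem pt_eq {j : ℕ} (p : El (A.P Y) (D j)) : A.pt p = Pt.ch (A.ev p) :=
  Pt.globe_ext (Pt.ch_id _).symm

variable (Y)
/-- the top of a cylinder -/
noncomputable def tp : A.P Y ⟶ Y :=
  mkHom (fun _ p => (pts_surj ((A.pt p).push (Sy.top Y))).choose) fun o p => pts_inj (by
    rw [(pts_surj _).choose_spec, A.top Y o _ _ (pts_surj _).choose_spec, pt_act])
variable {Y}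
theorem ap_tp {j : ℕ} (p : El (A.P Y) (D j)) : ap (A.tp Y) p = (Sy.top Y).app j (A.ev p) :=
  (act_id Y _).symm.trans (congrArg (fun r : Pt (gs Y) (D j) => r.app j (𝟙 _))
    (pts_surj ((A.pt p).push (Sy.top Y))).choose_spec)

theorem botEq_iff {S : Shape} (p q : El (A.P Y) S) :
    BotEq k (fun j c => Sy.bot Y j (A.ev c)) p q ↔
      ∀ m ≤ k, ∀ u : D m ⟶ S, Sy.bot Y m ((A.pt p).app m u) = Sy.bot Y m ((A.pt q).app m u) := by
  simp only [BotEq, ev_shape]

theorem botEq_succ (_hk : k < l) {j : ℕ} (p q : El (A.P Y) (D (j + 1)))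
    (h0 : (Sy.G Y).src j (A.ev p) = (Sy.G Y).src j (A.ev q))
    (h1 : j ≤ k → Sy.bot Y j ((Sy.G Y).tgt j (A.ev p)) = Sy.bot Y j ((Sy.G Y).tgt j (A.ev q)))
    (h2 : j + 1 ≤ k → Sy.bot Y _ (A.ev p) = Sy.bot Y _ (A.ev q)) :
    BotEq k (fun j c => Sy.bot Y j (A.ev c)) p q := by
  rw [botEq_iff]
  intro m hm u
  rcases (globe_le u).eq_or_lt with rfl | lt
  · rw [globe_endo u]; exact h2 hm
  have hs : ∀ v : D m ⟶ D j, (A.pt p).app m (v ≫ Shape.σ j) = (A.pt q).app m (v ≫ Shape.σ j) := by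
    intro v
    rw [pt_eq, pt_eq, ← Pt.pull_app, ← Pt.pull_app, ← Pt.ch_src, ← Pt.ch_src, h0]
  obtain ⟨x, rfl⟩ := globe_lt lt u
  rcases (Nat.le_of_lt_succ lt).eq_or_lt with rfl | lt'
  · cases x
    · have := hs (𝟙 _)
      rw [Category.id_comp] at this
      exact congrArg _ this
    · have := h1 hm
      rwa [ev, ev, ← Pt.app_tgt, ← Pt.app_tgt, Category.comp_id] at this
  · have := hs (Shape.faceMap lt' x)
    rw [σ_eq, face_face] at this
    exact congrArg _ this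

end Act

theorem path (e : C.UnitChoice) {n k l : ℕ} (Sy : Sys C n k l) (h : k < l) (A : Act Sy) :
    PathStmt e n k := fun Y => ⟨
  { P := A.P Y
    top := A.tp Y
    bot := fun j c => Sy.bot Y j (A.ev c)
    triv := ⟨fun w => by
        obtain ⟨z, hz⟩ := (Sy.triv Y).zero w
        exact ⟨A.el (Pt.ch z), (A.ap_tp _).trans (by rw [A.ev_ch, hz])⟩,
      fun j a b hp w h1 h2 => by
        obtain ⟨z, z1, z2, z3⟩ := (Sy.triv Y).succ j _ _ (A.ev_par hp) w (h1.trans (A.ap_tp a))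
          (h2.trans (A.ap_tp b))
        exact ⟨A.el (Pt.ch z), A.ev_inj (by rw [A.ev_src, A.ev_ch, z1]),
          A.ev_inj (by rw [A.ev_tgt, A.ev_ch, z2]), (A.ap_tp _).trans (by rw [A.ev_ch, z3])⟩⟩
    cong := fun o p q hpq => by
      rw [A.botEq_iff] at hpq ⊢
      exact A.condR Y o _ _ hpq
    transfer := fun j hj c c' hp => by
      rw [A.ap_tp, A.ap_tp]
      exact ⟨Sy.tr1 h hj (A.ev_par hp), Sy.tr2 h hj (A.ev_par hp)⟩
    extA := fun c₀ p hp => by
      obtain ⟨c, c1, c2, c3, c4⟩ := Sy.extA0 h e (A.ev c₀) p (hp.trans (A.ap_tp _))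
      refine ⟨A.el (Pt.ch c), A.ev_inj (by rw [A.ev_src, A.ev_ch, c1]),
        (A.ap_tp _).trans (by rw [A.ev_ch, c2]), A.botEq_succ h _ _ ?_ (fun hn => ?_) fun hn => ?_⟩
      · rw [A.ev_ch, c1, ← A.ev_src, src_unit]
      · rw [A.ev_ch, c3 hn, ← A.ev_tgt, tgt_unit]
      · rw [A.ev_ch, c4 hn]
        refine ((A.condC Y (e.unit n) (A.pt c₀) (Sy.bot Y n (A.ev c₀)) (fun m _ u => ?_) _ hn
          (𝟙 _)).trans (act_id Y _)).symm
        rw [A.pt_eq, Sy.bot_ch Y (by omega)]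
    extM := fun j hj c₀ z z' hz hs => by
      obtain ⟨c, c', c1, c2, c3, c4, c5⟩ := Sy.extM0 h hj (A.ev c₀) z z' (hz.trans (A.ap_tp _)) hs
      refine ⟨A.el (Pt.ch c), A.el (Pt.ch c'), A.ev_inj (by rw [A.ev_src, A.ev_ch, c1]),
        A.ev_inj (by rw [A.ev_src, A.ev_ch, ← c2.1, c1]), (A.ap_tp _).trans (by rw [A.ev_ch, c3]),
        (A.ap_tp _).trans (by rw [A.ev_ch, c4]), A.botEq_succ h _ _ ?_ (fun _ => ?_) fun hn => ?_⟩
      · rw [A.ev_ch, A.ev_ch, c2.1]
      · rw [A.ev_ch, A.ev_ch, c2.2]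
      · rw [A.ev_ch, A.ev_ch, c5 hn] }⟩

end Crest.Agent.R248
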