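import Crest.Agent.R248.Model
import Crest.Agent.R248.AM

/-! Row 248: cell-level properties of a complete system of cylinders. -/

namespace Crest.Agent.R248
open CategoryTheory CategoryTheory.Limits Opposite
open Crest.GeometryTopology.Coherator Crest.GeometryTopology.Coherator.GlobTheory
open Crest.GeometryTopology.Coherator.GlobTheory.GlobModel
universe u

variable {C : GlobTheory.{u}}

theorem TrivFib.par2 {Z W : GlobSet.{u}} {t : Z.Map W} (h : TrivFib t) {j : ℕ} (c : Z.cell j)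
    (w : W.cell j) (hw : W.AreParallel j (t.app j c) w) :
    ∃ z, Z.AreParallel j c z ∧ t.app j z = w := by
  cases j with
  | zero => exact (h.zero w).imp fun _ hz => ⟨trivial, hz⟩
  | succ j =>
    obtain ⟨z, z1, z2, z3⟩ := h.succ j _ _ (Pt.par_src_tgt Z j c) w
      (hw.1.symm.trans (t.app_src j c).symm) (hw.2.symm.trans (t.app_tgt j c).symm)
    exact ⟨z, ⟨z1.symm, z2.symm⟩, z3⟩

namespace Sys
variable {n k l : ℕ} (Sy : Sys C n k l)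

/-- the universal cell -/
noncomputable def uc (j : ℕ) : (Sy.G (Sy.K (D j))).cell j := (Sy.univ (D j)).app j (𝟙 _)

theorem cls_uc {Y : C.GlobModel} {j : ℕ} (c : (Sy.G Y).cell j) :
    (Sy.map (Sy.cls (Pt.ch c))).app j (Sy.uc j) = c :=
  (congrArg (fun r : Pt (Sy.G Y) (D j) => r.app j (𝟙 _)) (Sy.cls_spec (Pt.ch c))).trans
    (Pt.ch_id c)

theorem cls_map {Y Z : C.GlobModel} (g : Y ⟶ Z) {j : ℕ} (c : (Sy.G Y).cell j) :
    Sy.cls (Pt.ch ((Sy.map g).app j c)) = Sy.cls (Pt.ch c) ≫ g :=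
  Sy.cls_uniq (by rw [← push_push, cls_spec, Pt.ch_map])

theorem fill_par {Y : C.GlobModel} (hY : Contr k Y) {j : ℕ} (h1 : n ≤ j) (h2 : j < l)
    (c : (Sy.G Y).cell j) (x y : El Y (D j)) (hx : (gs Y).AreParallel j ((Sy.top Y).app j c) x)
    (hy : (gs Y).AreParallel j (Sy.bot Y j c) y) :
    ∃ z, (Sy.G Y).AreParallel j c z ∧ (Sy.top Y).app j z = x ∧ Sy.bot Y j z = y := by
  cases j with
  | zero => exact (Sy.fill0 (by omega) h2 Y hY x y).imp fun _ hz => ⟨trivial, hz⟩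
  | succ j =>
    obtain ⟨z, z1, z2, z3⟩ := Sy.fill j h1 h2 Y hY _ _ (Pt.par_src_tgt _ j c) x y
      (hx.1.symm.trans ((Sy.top Y).app_src j c).symm)
      (hx.2.symm.trans ((Sy.top Y).app_tgt j c).symm)
      (hy.1.symm.trans (Sy.bot_src Y j h2 c).symm) (hy.2.symm.trans (Sy.bot_tgt Y j h2 c).symm)
    exact ⟨z, ⟨z1.symm, z2.symm⟩, z3⟩

theorem tr1 (hk : k < l) {Y : C.GlobModel} {j : ℕ} (hj : j ≤ k) {c c' : (Sy.G Y).cell j}
    (hp : (Sy.G Y).AreParallel j c c')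
    (hs : (gs Y).Step j ((Sy.top Y).app j c) ((Sy.top Y).app j c')) :
    (gs Y).Step j (Sy.bot Y j c) (Sy.bot Y j c') := by
  obtain ⟨h, h1, h2⟩ := hs
  obtain ⟨z, rfl, rfl, -⟩ := (Sy.triv Y).succ j c c' hp h h1 h2
  have := map_step (gm (Sy.cls (Pt.ch z))) (Sy.contr _ j hj _ _
    (Sy.bot_par _ (by omega) (Pt.par_src_tgt _ j (Sy.uc (j + 1)))))
  dsimp only at this
  rwa [← Sy.bot_map, ← Sy.bot_map, GlobSet.Map.app_src, GlobSet.Map.app_tgt, cls_uc] at this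

theorem ex_inv (hk : k < l) : ∀ j ≤ k, ∃ I : ∀ Y : C.GlobModel, (Sy.G Y).cell j → (Sy.G Y).cell j,
    (∀ (Y Z : C.GlobModel) (f : Y ⟶ Z) c, I Z ((Sy.map f).app j c) = (Sy.map f).app j (I Y c)) ∧
    (∀ Y c c', (Sy.G Y).AreParallel j c c' → (Sy.G Y).AreParallel j (I Y c) (I Y c')) ∧
    (∀ Y c, (Sy.top Y).app j (I Y c) = Sy.bot Y j c) ∧
    (∀ Y c, Sy.bot Y j (I Y c) = (Sy.top Y).app j c) := by
  have gen : ∀ (j : ℕ) (d : (Sy.G (Sy.K (D j))).cell j),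
      (Sy.top _).app j d = Sy.bot _ j (Sy.uc j) → Sy.bot _ j d = (Sy.top _).app j (Sy.uc j) →
      (∀ (Y Z : C.GlobModel) (f : Y ⟶ Z) (c : (Sy.G Y).cell j),
        (Sy.map (Sy.cls (Pt.ch ((Sy.map f).app j c)))).app j d =
          (Sy.map f).app j ((Sy.map (Sy.cls (Pt.ch c))).app j d)) ∧
      (∀ Y (c : (Sy.G Y).cell j),
        (Sy.top Y).app j ((Sy.map (Sy.cls (Pt.ch c))).app j d) = Sy.bot Y j c) ∧
      (∀ Y (c : (Sy.G Y).cell j),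
        Sy.bot Y j ((Sy.map (Sy.cls (Pt.ch c))).app j d) = (Sy.top Y).app j c) :=
    fun j d h1 h2 => ⟨fun Y Z f c => by rw [cls_map, Sy.map_comp],
      fun Y c => by rw [Sy.top_map, h1, ← Sy.bot_map, cls_uc],
      fun Y c => by rw [Sy.bot_map, h2, ← Sy.top_map, cls_uc]⟩
  intro j
  induction j with
  | zero =>
    intro _
    have : ∃ d : (Sy.G (Sy.K (D 0))).cell 0, (Sy.top _).app 0 d = Sy.bot _ 0 (Sy.uc 0) ∧
        Sy.bot _ 0 d = (Sy.top _).app 0 (Sy.uc 0) := by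
      by_cases hn : n = 0
      · exact Sy.fill0 hn (by omega) _ (Sy.contr _) _ _
      · exact ⟨Sy.uc 0, (Sy.bot_low _ 0 (by omega) _).symm, Sy.bot_low _ 0 (by omega) _⟩
    obtain ⟨d, h1, h2⟩ := this
    obtain ⟨g1, g2, g3⟩ := gen 0 d h1 h2
    exact ⟨fun Y c => (Sy.map (Sy.cls (Pt.ch c))).app 0 d, g1, fun _ _ _ _ => trivial, g2, g3⟩
  | succ j ih =>
    intro hj
    obtain ⟨I, i1, i2, i3, i4⟩ := ih (by omega)
    have hp := i2 _ _ _ (Pt.par_src_tgt _ j (Sy.uc (j + 1)))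
    have : ∃ d : (Sy.G (Sy.K (D (j + 1)))).cell (j + 1),
        (Sy.G _).src j d = I _ ((Sy.G _).src j (Sy.uc (j + 1))) ∧
        (Sy.G _).tgt j d = I _ ((Sy.G _).tgt j (Sy.uc (j + 1))) ∧
        (Sy.top _).app _ d = Sy.bot _ _ (Sy.uc (j + 1)) ∧
        Sy.bot _ _ d = (Sy.top _).app _ (Sy.uc (j + 1)) := by
      have e1 := ((i3 _ _).trans (Sy.bot_src _ j (by omega) (Sy.uc (j + 1)))).symm
      have e2 := ((i3 _ _).trans (Sy.bot_tgt _ j (by omega) (Sy.uc (j + 1)))).symm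
      by_cases hn : n ≤ j + 1
      · exact Sy.fill j hn (by omega) _ (Sy.contr _) _ _ hp _ _ e1 e2
          ((i4 _ _).trans ((Sy.top _).app_src j _)).symm
          ((i4 _ _).trans ((Sy.top _).app_tgt j _)).symm
      · obtain ⟨d, d1, d2, d3⟩ := (Sy.triv _).succ j _ _ hp _ e1 e2
        refine ⟨d, d1, d2, d3, ?_⟩
        rw [Sy.bot_low _ _ (by omega), d3, Sy.bot_low _ _ (by omega)]
    obtain ⟨d, d1, d2, h1, h2⟩ := this
    obtain ⟨g1, g2, g3⟩ := gen _ d h1 h2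
    refine ⟨fun Y c => (Sy.map (Sy.cls (Pt.ch c))).app _ d, g1, fun Y c c' h => ⟨?_, ?_⟩, g2, g3⟩
    · simp only [← GlobSet.Map.app_src, d1, ← i1]
      simp only [GlobSet.Map.app_src, cls_uc, h.1]
    · simp only [← GlobSet.Map.app_tgt, d2, ← i1]
      simp only [GlobSet.Map.app_tgt, cls_uc, h.2]

theorem tr2 (hk : k < l) {Y : C.GlobModel} {j : ℕ} (hj : j ≤ k) {c c' : (Sy.G Y).cell j}
    (hp : (Sy.G Y).AreParallel j c c') (hs : (gs Y).Step j (Sy.bot Y j c) (Sy.bot Y j c')) :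
    (gs Y).Step j ((Sy.top Y).app j c) ((Sy.top Y).app j c') := by
  obtain ⟨I, -, i2, i3, i4⟩ := Sy.ex_inv hk j hj
  have := Sy.tr1 hk hj (i2 Y c c' hp) (by rwa [i3, i3])
  rwa [i4, i4] at this

theorem extA0 (hk : k < l) (e : C.UnitChoice) {Y : C.GlobModel} (c₀ : (Sy.G Y).cell n)
    (p : El Y (D (n + 1))) (hp : (gs Y).src n p = (Sy.top Y).app n c₀) :
    ∃ c : (Sy.G Y).cell (n + 1), (Sy.G Y).src n c = c₀ ∧ (Sy.top Y).app _ c = p ∧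
      (n ≤ k → Sy.bot Y n ((Sy.G Y).tgt n c) = Sy.bot Y n c₀) ∧
      (n + 1 ≤ k → Sy.bot Y _ c = Y.act (e.unit n) (Sy.bot Y n c₀)) := by
  obtain ⟨c₁, p1, t1⟩ := (Sy.triv Y).par2 c₀ ((gs Y).tgt n p) (hp ▸ Pt.par_src_tgt (gs Y) n p)
  obtain ⟨z, z1, -, z3⟩ := (Sy.triv Y).succ n c₀ c₁ p1 p hp t1.symm
  by_cases hn : n ≤ k
  swap
  · exact ⟨z, z1, z3, fun h => absurd h hn, fun h => by omega⟩
  set w := Sy.uc (n + 1) with hw
  obtain ⟨d₁, q1, q2, q3⟩ := Sy.fill_par (Sy.contr _) le_rfl (by omega) ((Sy.G _).src n w)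
    ((gs _).tgt n ((Sy.top _).app _ w)) (Sy.bot _ n ((Sy.G _).src n w))
    (by rw [GlobSet.Map.app_src]; exact Pt.par_src_tgt _ n _)
    (by cases n <;> trivial)
  have : ∃ d, (Sy.G _).src n d = (Sy.G _).src n w ∧ (Sy.G _).tgt n d = d₁ ∧
      (Sy.top _).app _ d = (Sy.top _).app _ w ∧
      (n + 1 ≤ k → Sy.bot _ _ d = (Sy.K _).act (e.unit n) (Sy.bot _ n ((Sy.G _).src n w))) := by
    by_cases hn' : n + 1 ≤ k
    · obtain ⟨d, d1, d2, d3, d4⟩ := Sy.fill n (by omega) (by omega) _ (Sy.contr _) _ _ q1 _ _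
        ((Sy.top _).app_src n w).symm q2.symm (src_unit e _ n _) ((tgt_unit e _ n _).trans q3.symm)
      exact ⟨d, d1, d2, d3, fun _ => d4⟩
    · obtain ⟨d, d1, d2, d3⟩ := (Sy.triv _).succ n _ _ q1 _ ((Sy.top _).app_src n w).symm q2.symm
      exact ⟨d, d1, d2, d3, fun h => absurd h hn'⟩
  obtain ⟨d, d1, d2, d3, d4⟩ := this
  have hz : (Sy.map (Sy.cls (Pt.ch z))).app _ w = z := Sy.cls_uc z
  refine ⟨(Sy.map (Sy.cls (Pt.ch z))).app _ d, ?_, ?_, fun _ => ?_, fun h => ?_⟩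
  · rw [← GlobSet.Map.app_src, d1, GlobSet.Map.app_src, hz, z1]
  · rw [Sy.top_map, d3, ← Sy.top_map, hz, z3]
  · rw [← GlobSet.Map.app_tgt, d2, Sy.bot_map, q3, ← Sy.bot_map, GlobSet.Map.app_src, hz, z1]
  · rw [Sy.bot_map, d4 h, ap_act, ← Sy.bot_map, GlobSet.Map.app_src, hz, z1]

theorem extM0 (hk : k < l) {Y : C.GlobModel} {j : ℕ} (hj : n ≤ j + 1) (c₀ : (Sy.G Y).cell j)
    (z z' : El Y (D (j + 1))) (hz : (gs Y).src j z = (Sy.top Y).app j c₀)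
    (hs : (gs Y).Step (j + 1) z z') :
    ∃ c c' : (Sy.G Y).cell (j + 1), (Sy.G Y).src j c = c₀ ∧ (Sy.G Y).AreParallel _ c c' ∧
      (Sy.top Y).app _ c = z ∧ (Sy.top Y).app _ c' = z' ∧
      (j + 1 ≤ k → Sy.bot Y _ c = Sy.bot Y _ c') := by
  obtain ⟨c₁, p1, t1⟩ := (Sy.triv Y).par2 c₀ ((gs Y).tgt j z) (hz ▸ Pt.par_src_tgt (gs Y) j z)
  obtain ⟨a, a1, -, a3⟩ := (Sy.triv Y).succ j c₀ c₁ p1 z hz t1.symm
  obtain ⟨b, b1, b2⟩ := (Sy.triv Y).par2 a z' (a3 ▸ step_par hs)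
  by_cases hn : j + 1 ≤ k
  swap
  · exact ⟨a, b, a1, b1, a3, b2, fun h => absurd h hn⟩
  obtain ⟨h, h1, h2⟩ := hs
  obtain ⟨y, rfl, rfl, -⟩ := (Sy.triv Y).succ _ a b b1 h (h1.trans a3.symm) (h2.trans b2.symm)
  set w := Sy.uc (j + 1 + 1) with hw
  obtain ⟨d, q1, q2, q3⟩ := Sy.fill_par (Sy.contr _) hj (by omega) ((Sy.G _).src _ w)
    ((Sy.top _).app _ ((Sy.G _).tgt _ w)) (Sy.bot _ _ ((Sy.G _).src _ w))
    (map_par _ (Pt.par_src_tgt _ _ w)) ⟨rfl, rfl⟩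
  have hy : (Sy.map (Sy.cls (Pt.ch y))).app _ w = y := Sy.cls_uc y
  refine ⟨_, (Sy.map (Sy.cls (Pt.ch y))).app _ d, a1, ?_, a3, ?_, fun _ => ?_⟩
  · have := map_par (Sy.map (Sy.cls (Pt.ch y))) q1
    rwa [GlobSet.Map.app_src, hy] at this
  · rw [Sy.top_map, q2, ← Sy.top_map, GlobSet.Map.app_tgt, hy, b2]
  · rw [Sy.bot_map, q3, ← Sy.bot_map, GlobSet.Map.app_src, hy]

end Sys
end Crest.Agent.R248
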