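import Crest.Agent.R248.Mod

/-! Row 248: points of a globular set at a shape (= globular maps from the shape). -/

namespace Crest.Agent.R248
open CategoryTheory CategoryTheory.Limits Opposite
open Crest.GeometryTopology.Coherator Crest.GeometryTopology.Coherator.GlobTheory
open Crest.GeometryTopology.Coherator.GlobTheory.GlobModel
universe u

/-- globular maps from a shape to a globular set -/
@[ext] structure Pt (G : GlobSet.{u}) (S : Shape) : Type u where
  app : (j : ℕ) → (D j ⟶ S) → G.cell j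
  app_src : ∀ (j : ℕ) (w : D (j + 1) ⟶ S), app j (Shape.σ j ≫ w) = G.src j (app (j + 1) w)
  app_tgt : ∀ (j : ℕ) (w : D (j + 1) ⟶ S), app j (Shape.τ j ≫ w) = G.tgt j (app (j + 1) w)

namespace Pt
variable {G G' : GlobSet.{u}} {R S T : Shape}

/-- restriction along a map of shapes -/
noncomputable def pull (f : S ⟶ T) (p : Pt G T) : Pt G S where
  app j w := p.app j (w ≫ f)
  app_src j w := by rw [Category.assoc, p.app_src]
  app_tgt j w := by rw [Category.assoc, p.app_tgt]
@[simp] theorem pull_app (f : S ⟶ T) (p : Pt G T) (j : ℕ) (w : D j ⟶ S) :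
    (p.pull f).app j w = p.app j (w ≫ f) := rfl
@[simp] theorem pull_id (p : Pt G T) : p.pull (𝟙 T) = p := by ext; simp
theorem pull_comp (f : R ⟶ S) (g : S ⟶ T) (p : Pt G T) :
    p.pull (f ≫ g) = (p.pull g).pull f := by ext; simp

/-- composition with a map of globular sets -/
def push (g : G.Map G') (p : Pt G S) : Pt G' S where
  app j w := g.app j (p.app j w)
  app_src j w := by rw [p.app_src, g.app_src]
  app_tgt j w := by rw [p.app_tgt, g.app_tgt]
@[simp] theorem push_app (g : G.Map G') (p : Pt G S) (j : ℕ) (w : D j ⟶ S) :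
    (p.push g).app j w = g.app j (p.app j w) := rfl
theorem push_pull (g : G.Map G') (f : S ⟶ T) (p : Pt G T) :
    (p.pull f).push g = (p.push g).pull f := rfl

/-- points on a globe are determined by their top cell -/
theorem globe_ext : ∀ {j : ℕ} {p q : Pt G (D j)}, p.app j (𝟙 _) = q.app j (𝟙 _) → p = q := by
  intro j
  induction j with
  | zero =>
    intro p q h
    ext i w
    obtain rfl : i = 0 := Nat.le_zero.1 (globe_le w)
    rw [globe_endo w, h]
  | succ j ih =>
    intro p q h
    have hs : p.pull (Shape.σ j) = q.pull (Shape.σ j) := ih (by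
      have h1 := p.app_src j (𝟙 _)
      have h2 := q.app_src j (𝟙 _)
      simp only [Category.comp_id] at h1 h2
      simp [h1, h2, h])
    have ht : p.pull (Shape.τ j) = q.pull (Shape.τ j) := ih (by
      have h1 := p.app_tgt j (𝟙 _)
      have h2 := q.app_tgt j (𝟙 _)
      simp only [Category.comp_id] at h1 h2
      simp [h1, h2, h])
    ext i w
    rcases (globe_le w).eq_or_lt with rfl | l
    · rw [globe_endo w, h]
    · rcases globe_succ (Nat.le_of_lt_succ l) w with ⟨v, rfl⟩ | ⟨v, rfl⟩
      · exact congrArg (fun r : Pt G (D j) => r.app i v) hs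
      · exact congrArg (fun r : Pt G (D j) => r.app i v) ht

theorem glue_ext (S : Shape) (b h : ℕ) (hb : b < S.last) (hh : b < h)
    {p q : Pt G (S.glue b h hb hh)}
    (h1 : p.pull (S.inLeft b h hb hh) = q.pull (S.inLeft b h hb hh))
    (h2 : p.pull (S.inRight b h hb hh) = q.pull (S.inRight b h hb hh)) : p = q := by
  ext i w
  rcases glue_cells S b h hb hh w with ⟨v, rfl⟩ | ⟨v, rfl⟩
  · exact congrArg (fun r : Pt G S => r.app i v) h1
  · exact congrArg (fun r : Pt G (D h) => r.app i v) h2

theorem face_inj {j h : ℕ} (l : j < h) {x y : Bool}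
    (e : Shape.faceMap l x = Shape.faceMap l y) : x = y := by
  cases x <;> cases y
  · rfl
  · exact absurd e (face_ne l)
  · exact absurd e.symm (face_ne l)
  · rfl

/-- points on globes with parallel top cells agree on the lower cells -/
theorem par_app {j : ℕ} (a b : Pt G (D j))
    (h : G.AreParallel j (a.app j (𝟙 _)) (b.app j (𝟙 _))) {i : ℕ} (l : i < j) (v : D i ⟶ D j) :
    a.app i v = b.app i v := by
  obtain ⟨j, rfl⟩ : ∃ k, j = k + 1 := ⟨j - 1, by omega⟩
  have hs : a.pull (Shape.σ j) = b.pull (Shape.σ j) := globe_ext (by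
    have h1 := a.app_src j (𝟙 _)
    have h2 := b.app_src j (𝟙 _)
    simp only [Category.comp_id] at h1 h2
    simp [h1, h2, h.1])
  have ht : a.pull (Shape.τ j) = b.pull (Shape.τ j) := globe_ext (by
    have h1 := a.app_tgt j (𝟙 _)
    have h2 := b.app_tgt j (𝟙 _)
    simp only [Category.comp_id] at h1 h2
    simp [h1, h2, h.2])
  rcases globe_succ (Nat.le_of_lt_succ l) v with ⟨v, rfl⟩ | ⟨v, rfl⟩
  · exact congrArg (fun r : Pt G (D j) => r.app i v) hs
  · exact congrArg (fun r : Pt G (D j) => r.app i v) ht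

theorem par_src_tgt (G : GlobSet.{u}) (j : ℕ) (c : G.cell (j + 1)) :
    G.AreParallel j (G.src j c) (G.tgt j c) := (G.bdry (j + 1) c).2

theorem fill {j : ℕ} (a b : Pt G (D j)) (c : G.cell (j + 1))
    (hs : G.src j c = a.app j (𝟙 _)) (ht : G.tgt j c = b.app j (𝟙 _)) :
    ∃ p : Pt G (D (j + 1)), p.app (j + 1) (𝟙 _) = c ∧ p.pull (Shape.σ j) = a ∧
      p.pull (Shape.τ j) = b := by
  have hpar : G.AreParallel j (a.app j (𝟙 _)) (b.app j (𝟙 _)) := hs ▸ ht ▸ par_src_tgt G j c
  have key : ∀ (i : ℕ) (w : D i ⟶ D (j + 1)), ∃ val : G.cell i,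
      (∀ e : j + 1 = i, val = e ▸ c) ∧ (∀ v, w = v ≫ Shape.σ j → val = a.app i v) ∧
        (∀ v, w = v ≫ Shape.τ j → val = b.app i v) := by
    intro i w
    rcases (globe_le w).eq_or_lt with rfl | l
    · exact ⟨c, fun _ => rfl, fun v _ => absurd (globe_le v) (by omega),
        fun v _ => absurd (globe_le v) (by omega)⟩
    obtain ⟨x, rfl⟩ := globe_lt l w
    rcases (Nat.le_of_lt_succ l).eq_or_lt with rfl | l'
    · cases x
      · refine ⟨a.app i (𝟙 _), fun e => absurd e (by omega), fun v _ => by rw [globe_endo v],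
          fun v hv => ?_⟩
        rw [globe_endo v, Category.id_comp] at hv
        exact absurd hv (face_ne l)
      · refine ⟨b.app i (𝟙 _), fun e => absurd e (by omega), fun v hv => ?_,
          fun v _ => by rw [globe_endo v]⟩
        rw [globe_endo v, Category.id_comp] at hv
        exact absurd hv.symm (face_ne l)
    · refine ⟨a.app i (Shape.faceMap l' x), fun e => absurd e (by omega), fun v hv => ?_,
        fun v hv => ?_⟩
      · obtain ⟨y, rfl⟩ := globe_lt l' v
        rw [σ_eq, face_face] at hv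
        rw [face_inj l hv]
      · obtain ⟨y, rfl⟩ := globe_lt l' v
        rw [τ_eq, face_face] at hv
        rw [face_inj l hv]
        exact par_app a b hpar l' _
  choose val h0 h1 h2 using key
  refine ⟨⟨val, fun i w => ?_, fun i w => ?_⟩, h0 _ _ rfl, ?_, ?_⟩
  · rcases (globe_le w).eq_or_lt with e | l
    · obtain rfl : i = j := by omega
      rw [globe_endo w, h0 _ (𝟙 _) rfl, h1 _ _ (𝟙 _) (by simp), hs]
    · rcases globe_succ (Nat.le_of_lt_succ l) w with ⟨v, rfl⟩ | ⟨v, rfl⟩
      · rw [h1 _ _ v rfl, h1 _ _ (Shape.σ i ≫ v) (by simp), a.app_src]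
      · rw [h2 _ _ v rfl, h2 _ _ (Shape.σ i ≫ v) (by simp), b.app_src]
  · rcases (globe_le w).eq_or_lt with e | l
    · obtain rfl : i = j := by omega
      rw [globe_endo w, h0 _ (𝟙 _) rfl, h2 _ _ (𝟙 _) (by simp), ht]
    · rcases globe_succ (Nat.le_of_lt_succ l) w with ⟨v, rfl⟩ | ⟨v, rfl⟩
      · rw [h1 _ _ v rfl, h1 _ _ (Shape.τ i ≫ v) (by simp), a.app_tgt]
      · rw [h2 _ _ v rfl, h2 _ _ (Shape.τ i ≫ v) (by simp), b.app_tgt]
  · ext i v; exact h1 _ _ v rfl
  · ext i v; exact h2 _ _ v rfl

theorem globe_ex : ∀ {j : ℕ} (c : G.cell j), ∃ p : Pt G (D j), p.app j (𝟙 _) = c := by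
  intro j
  induction j with
  | zero =>
    intro c
    refine ⟨⟨fun i w => (Nat.le_zero.1 (globe_le w)).symm ▸ c,
      fun i w => absurd (globe_le w) (by omega), fun i w => absurd (globe_le w) (by omega)⟩, rfl⟩
  | succ j ih =>
    intro c
    obtain ⟨a, ha⟩ := ih (G.src j c)
    obtain ⟨b, hb⟩ := ih (G.tgt j c)
    exact (fill a b c ha.symm hb.symm).imp fun _ h => h.1

/-- the characteristic point of a cell -/
noncomputable def ch {j : ℕ} (c : G.cell j) : Pt G (D j) := (globe_ex c).choose
@[simp] theorem ch_id {j : ℕ} (c : G.cell j) : (ch c).app j (𝟙 _) = c := (globe_ex c).choose_spec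
theorem ch_app (p : Pt G S) {j : ℕ} (w : D j ⟶ S) : ch (p.app j w) = p.pull w :=
  globe_ext (by simp)
theorem ch_src {j : ℕ} (c : G.cell (j + 1)) : ch (G.src j c) = (ch c).pull (Shape.σ j) :=
  globe_ext (by simpa using ((ch c).app_src j (𝟙 _)).symm)
theorem ch_tgt {j : ℕ} (c : G.cell (j + 1)) : ch (G.tgt j c) = (ch c).pull (Shape.τ j) :=
  globe_ext (by simpa using ((ch c).app_tgt j (𝟙 _)).symm)
theorem ch_map (g : G.Map G') {j : ℕ} (c : G.cell j) : ch (g.app j c) = (ch c).push g :=
  globe_ext (by simp)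

theorem glue_ex (S : Shape) (b h : ℕ) (hb : b < S.last) (hh : b < h) (p : Pt G S)
    (q : Pt G (D h)) (w : p.pull (S.hinge hb) = q.pull (Shape.faceMap hh false)) :
    ∃ r : Pt G (S.glue b h hb hh), r.pull (S.inLeft b h hb hh) = p ∧
      r.pull (S.inRight b h hb hh) = q := by
  have key : ∀ i : ℕ, ∃ val : (D i ⟶ S.glue b h hb hh) → G.cell i,
      (∀ v, val (v ≫ S.inLeft b h hb hh) = p.app i v) ∧
      (∀ v, val (v ≫ S.inRight b h hb hh) = q.app i v) := by
    intro i
    have hp := ((IsPushout.of_hasPushout (GlobPsh.globeRepFace hb true ≫ S.apex)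
      (GlobPsh.globeRepFace hh false)).map
      ((evaluation GlobeObjᵒᵖ Type).obj (op (GlobeObj.mk i)))).map uliftFunctor.{u}
    let e := fun (T : Shape) => (yonedaEquiv (X := GlobeObj.mk i) (F := T.psh))
    have he : ∀ {T T' : Shape} (f : T ⟶ T') (v : D i ⟶ T),
        e T' (v ≫ f) = (show T.psh ⟶ T'.psh from f).app _ (e T v) :=
      fun f v => yonedaEquiv_comp _ _
    obtain ⟨d, hd1, hd2⟩ := hp.exists_desc (W := G.cell i)
      (TypeCat.ofHom fun x => p.app i ((e S).symm x.down))
      (TypeCat.ofHom fun x => q.app i ((e (D h)).symm x.down)) (by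
        ext ⟨x⟩
        obtain ⟨v, rfl⟩ := (e (D b)).surjective x
        have h1 := congrArg (e S).symm (he (S.hinge hb) v)
        have h2 := congrArg (e (D h)).symm (he (Shape.faceMap hh false) v)
        rw [Equiv.symm_apply_apply] at h1 h2
        exact (congrArg (p.app i) h1.symm).trans
          ((congrArg (fun r : Pt G (D b) => r.app i v) w).trans (congrArg (q.app i) h2)))
    refine ⟨fun w => d (ULift.up (e _ w)), fun v => ?_, fun v => ?_⟩
    · have := types_congr_hom hd1 (ULift.up (e S v))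
      exact (congrArg (fun t => d (ULift.up t)) (he _ v)).trans
        (this.trans (congrArg (p.app i) ((e S).symm_apply_apply v)))
    · have := types_congr_hom hd2 (ULift.up (e (D h) v))
      exact (congrArg (fun t => d (ULift.up t)) (he _ v)).trans
        (this.trans (congrArg (q.app i) ((e (D h)).symm_apply_apply v)))
  choose val h1 h2 using key
  refine ⟨⟨val, fun i w => ?_, fun i w => ?_⟩, ?_, ?_⟩
  · rcases glue_cells S b h hb hh w with ⟨v, rfl⟩ | ⟨v, rfl⟩
    · rw [← Category.assoc, h1, h1, p.app_src]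
    · rw [← Category.assoc, h2, h2, q.app_src]
  · rcases glue_cells S b h hb hh w with ⟨v, rfl⟩ | ⟨v, rfl⟩
    · rw [← Category.assoc, h1, h1, p.app_tgt]
    · rw [← Category.assoc, h2, h2, q.app_tgt]
  · ext i v; exact h1 i v
  · ext i v; exact h2 i v

end Pt

variable {C : GlobTheory.{u}}

/-- the point underlying an element of a model -/
noncomputable def pts {Y : C.GlobModel} {S : Shape} (y : El Y S) : Pt (gs Y) S where
  app _ w := Y.act (C.ofShape w) y
  app_src _ w := act_comp Y _ w y
  app_tgt _ w := act_comp Y _ w y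
@[simp] theorem pts_app {Y : C.GlobModel} {S : Shape} (y : El Y S) (j : ℕ) (w : D j ⟶ S) :
    (pts y).app j w = Y.act (C.ofShape w) y := rfl
theorem pts_act {Y : C.GlobModel} {S T : Shape} (f : S ⟶ T) (y : El Y T) :
    pts (Y.act (C.ofShape f) y) = (pts y).pull f := by
  ext j w; exact (act_comp Y w f y).symm
theorem pts_ap {X Y : C.GlobModel} (f : X ⟶ Y) {S : Shape} (x : El X S) :
    pts (ap f x) = (pts x).push (gm f) := by
  ext j w; exact (ap_act f _ x).symm
theorem pts_inj {Y : C.GlobModel} {S : Shape} {x y : El Y S} (h : pts x = pts y) : x = y :=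
  el_ext Y fun j u => congrArg (fun r : Pt (gs Y) S => r.app j u) h
theorem pts_surj {Y : C.GlobModel} {S : Shape} (p : Pt (gs Y) S) : ∃ y : El Y S, pts y = p := by
  induction S using shape_ind with
  | h0 n => exact ⟨p.app n (𝟙 _), Pt.globe_ext (act_id Y _)⟩
  | h1 S b h hb hh ih =>
    obtain ⟨x, hx⟩ := ih (p.pull (S.inLeft b h hb hh))
    have hy : pts (Y := Y) (S := D h) (p.app h (S.inRight b h hb hh)) =
        p.pull (S.inRight b h hb hh) := Pt.globe_ext (by simp [act_id])
    obtain ⟨z, h1, h2⟩ := el_glue Y S b h hb hh x (p.app h (S.inRight b h hb hh)) (pts_inj (by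
      rw [pts_act, pts_act, hx, hy, ← Pt.pull_comp, ← Pt.pull_comp, glue_w]))
    exact ⟨z, Pt.glue_ext S b h hb hh (by rw [← pts_act, h1, hx]) (by rw [← pts_act, h2, hy])⟩

end Crest.Agent.R248
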