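import Crest.Agent.R248.Defs

/-! Row 248: representable models are contractible. -/

namespace Crest.Agent.R248
open CategoryTheory CategoryTheory.Limits Opposite
open Crest.GeometryTopology.Coherator Crest.GeometryTopology.Coherator.GlobTheory
open Crest.GeometryTopology.Coherator.GlobTheory.GlobModel
universe u

variable {C : GlobTheory.{u}}

namespace RP

theorem face_comp {b j k : ℕ} (l : b < j) (l' : b < k) (x : Bool) (u : D j ⟶ D k) :
    Shape.faceMap l x ≫ u = Shape.faceMap l' x := by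
  rcases globe_cases u with ⟨rfl, rfl⟩ | ⟨h, y, rfl⟩
  · simp
  · exact face_face _ _ _ _

/-- iterated units -/
theorem units (e : C.UnitChoice) (j : ℕ) : ∃ U : ∀ b, C.arr (D b) (D (j + 1)),
    U (j + 1) = C.one _ ∧ ∀ b h (l : b < h) (x : Bool), j + 1 ≤ b →
      C.seq (C.ofShape (Shape.faceMap l x)) (U h) = U b := by
  have F : ∀ b, b ≤ j + 1 → (D b ⟶ D (j + 1)) := fun b hb => Classical.choice (by
    rcases hb.eq_or_lt with rfl | l
    · exact ⟨𝟙 _⟩
    · exact ⟨Shape.faceMap l true⟩)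
  let U : ∀ b, C.arr (D b) (D (j + 1)) := fun b => Nat.rec (C.ofShape (F 0 (by omega)))
    (fun b u => if h : b + 1 ≤ j + 1 then C.ofShape (F _ h) else C.seq (e.unit b) u) b
  have hU : ∀ b, j + 1 ≤ b → U (b + 1) = C.seq (e.unit b) (U b) := fun b hb => dif_neg (by omega)
  refine ⟨U, (dif_pos le_rfl).trans (by rw [globe_endo (F _ _), C.ofShape_id]), fun b h l x hb => ?_⟩
  induction h with
  | zero => omega
  | succ h ih =>
    rw [hU h (by omega), ← C.seq_assoc]
    rcases (Nat.le_of_lt_succ l).eq_or_lt with rfl | l'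
    · cases x
      · rw [← σ_eq, e.src_unit, C.one_seq]
      · rw [← τ_eq, e.tgt_unit, C.one_seq]
    · rw [← face_comp l' l x (Shape.σ h), C.ofShape_comp, C.seq_assoc _ _ (e.unit h), e.src_unit,
        C.seq_one, ih]

/-- the truncation data -/
structure Tr (j : ℕ) (U : ∀ b, C.arr (D b) (D (j + 1))) {S S' : Shape} {L L' : ℕ} (A : D L ⟶ S)
    (A' : D L' ⟶ S') (ι : S' ⟶ S) (ρ : C.arr S S') : Prop where
  dim : S'.dim ≤ j + 1
  low : ∀ i ≤ j, ∀ u : D i ⟶ S, C.seq (C.seq (C.ofShape u) ρ) (C.ofShape ι) = C.ofShape u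
  ha : ∀ b (hb : b < L) (x : Bool), b ≤ j → ∃ hb' : b < L',
    (Shape.faceMap hb' x ≫ A') ≫ ι = Shape.faceMap hb x ≫ A ∧
      C.seq (C.ofShape (Shape.faceMap hb x ≫ A)) ρ = C.ofShape (Shape.faceMap hb' x ≫ A')
  hb : ∀ b (hb : b < L), j + 1 ≤ b → ∃ w : D (j + 1) ⟶ D L',
    C.seq (C.ofShape (Shape.faceMap hb true ≫ A)) ρ = C.seq (U b) (C.ofShape (w ≫ A'))

variable {j : ℕ} {U : ∀ b, C.arr (D b) (D (j + 1))} (h1 : U (j + 1) = C.one _)
  (h2 : ∀ b h (l : b < h) (x : Bool), j + 1 ≤ b →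
    C.seq (C.ofShape (Shape.faceMap l x)) (U h) = U b)
include h1 h2

theorem U_low {b h : ℕ} (l : b < h) (x : Bool) (hb : b < j + 1) (hh : j + 1 ≤ h) :
    C.seq (C.ofShape (Shape.faceMap l x)) (U h) = C.ofShape (Shape.faceMap hb x) := by
  rcases hh.eq_or_lt with rfl | l'
  · rw [h1, C.seq_one]
  · rw [← face_face hb l' x true, C.ofShape_comp, C.seq_assoc, h2 _ _ _ _ le_rfl, h1, C.seq_one]

theorem tr_globe (h : ℕ) : ∃ (h' : ℕ) (ι : D h' ⟶ D h) (ρ : C.arr (D h) (D h')),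
    Tr j U (𝟙 (D h)) (𝟙 (D h')) ι ρ := by
  rcases le_or_gt h (j + 1) with l | l
  · refine ⟨h, 𝟙 _, C.one _, l, fun i _ u => by rw [C.seq_one, C.ofShape_id, C.seq_one],
      fun b hb x _ => ⟨hb, Category.comp_id _, C.seq_one _⟩, fun b hb l' => by omega⟩
  · refine ⟨j + 1, Shape.faceMap l true, U h, le_rfl, fun i hi u => ?_, fun b hb x hb' => ?_,
      fun b hb l' => ⟨𝟙 _, ?_⟩⟩
    · obtain ⟨x, rfl⟩ := globe_lt (by omega) u
      rw [U_low h1 h2 _ _ (by omega) l.le, ← C.ofShape_comp, face_face]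
    · refine ⟨Nat.lt_succ_of_le hb', ?_, ?_⟩
      · simp only [Category.comp_id, face_face]
      · simp only [Category.comp_id]
        exact U_low h1 h2 _ _ _ l.le
    · simp only [Category.comp_id, C.ofShape_id, C.seq_one]
      exact h2 _ _ _ _ l'

theorem tr (S : Shape) : ∃ (S' : Shape) (ι : S' ⟶ S) (ρ : C.arr S S'), Tr j U (apx S) (apx S') ι ρ := by
  induction S using shape_ind with
  | h0 h => obtain ⟨h', ι, ρ, H⟩ := tr_globe h1 h2 h; exact ⟨_, ι, ρ, H⟩
  | h1 S b h hb hh ih =>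
    obtain ⟨S', ι, ρ, H⟩ := ih
    rcases le_or_gt b j with l | l
    · obtain ⟨h', κ, μ, K⟩ := tr_globe h1 h2 h
      obtain ⟨hb', a1, a2⟩ := H.ha b hb true l
      obtain ⟨hh', b1, b2⟩ := K.ha b hh false l
      simp only [Category.comp_id, ← hinge_eq] at a1 a2 b1 b2
      obtain ⟨ι', i1, i2⟩ := glue_desc S' b h' hb' hh' (ι ≫ S.inLeft b h hb hh)
        (κ ≫ S.inRight b h hb hh) (by rw [← Category.assoc, a1, ← Category.assoc, b1, glue_w])
      obtain ⟨ρ', r1, r2⟩ := el_glue (freeOn C (S'.glue b h' hb' hh')) S b h hb hh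
        (fr (C.seq ρ (C.ofShape (S'.inLeft b h' hb' hh'))))
        (fr (C.seq μ (C.ofShape (S'.inRight b h' hb' hh')))) (by
          rw [act_fr, act_fr, ← C.seq_assoc, ← C.seq_assoc, a2, b2, ← C.ofShape_comp,
            ← C.ofShape_comp, glue_w])
      rw [← fr_unfr ρ', act_fr, fr_inj] at r1 r2
      refine ⟨_, ι', unfr ρ', (?_ : Tr j U (S.inRight b h hb hh) (S'.inRight b h' hb' hh') _ _)⟩
      refine ⟨max_le H.dim K.dim, fun i hi u => ?_, fun c hc x l' => ?_,
        fun c hc l' => ?_⟩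
      · rcases glue_cells S b h hb hh u with ⟨v, rfl⟩ | ⟨v, rfl⟩
        · rw [C.ofShape_comp, C.seq_assoc _ _ (unfr ρ'), r1, C.seq_assoc, C.seq_assoc,
            ← C.ofShape_comp, i1, C.ofShape_comp, ← C.seq_assoc, ← C.seq_assoc,
            H.low i hi]
        · rw [C.ofShape_comp, C.seq_assoc _ _ (unfr ρ'), r2, C.seq_assoc, C.seq_assoc,
            ← C.ofShape_comp, i2, C.ofShape_comp, ← C.seq_assoc, ← C.seq_assoc,
            K.low i hi]
      · obtain ⟨hc', c1, c2⟩ := K.ha c hc x l'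
        simp only [Category.comp_id] at c1 c2
        refine ⟨hc', ?_, ?_⟩
        · rw [Category.assoc, i2, ← Category.assoc, c1]
        · rw [C.ofShape_comp, C.seq_assoc, r2, ← C.seq_assoc, c2,
            C.ofShape_comp]
      · obtain ⟨w, hw⟩ := K.hb c hc l'
        simp only [Category.comp_id] at hw
        refine ⟨w, ?_⟩
        rw [C.ofShape_comp, C.seq_assoc, r2, ← C.seq_assoc, hw,
          C.ofShape_comp, C.seq_assoc]
    · obtain ⟨w, hw⟩ := H.hb b hb l
      obtain ⟨ρ', r1, r2⟩ := el_glue (freeOn C S') S b h hb hh (fr ρ)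
        (fr (C.seq (U h) (C.ofShape (w ≫ apx S')))) (by
          rw [act_fr, act_fr, ← C.seq_assoc, hinge_eq, hw, h2 _ _ _ _ l])
      rw [← fr_unfr ρ', act_fr, fr_inj] at r1 r2
      have key : ∀ c (hc : c < h) (x : Bool) (l' : c < b), Shape.faceMap hc x ≫ S.inRight b h hb hh =
          (Shape.faceMap (l'.trans hb) x ≫ apx S) ≫ S.inLeft b h hb hh := fun c hc x l' => by
        rw [← face_face l' hh x false, Category.assoc, ← glue_w, hinge_eq, ← face_face l' hb x true]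
        simp only [Category.assoc]
      have low : ∀ i ≤ j, ∀ v : D i ⟶ S, C.seq (C.seq (C.ofShape (v ≫ S.inLeft b h hb hh))
          (unfr ρ')) (C.ofShape (ι ≫ S.inLeft b h hb hh)) = C.ofShape (v ≫ S.inLeft b h hb hh) :=
        fun i hi v => by
          rw [C.ofShape_comp, C.seq_assoc _ _ (unfr ρ'), r1, C.ofShape_comp, ← C.seq_assoc,
            H.low i hi]
      refine ⟨_, ι ≫ S.inLeft b h hb hh, unfr ρ', (?_ : Tr j U (S.inRight b h hb hh) _ _ _)⟩
      refine ⟨H.dim, fun i hi u => ?_, fun c hc x l' => ?_,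
        fun c hc l' => ⟨w, ?_⟩⟩
      · rcases glue_cells S b h hb hh u with ⟨v, rfl⟩ | ⟨v, rfl⟩
        · exact low i hi v
        · obtain ⟨x, rfl⟩ := globe_lt (by omega) v
          rw [key i _ x (by omega)]
          exact low i hi _
      · obtain ⟨hc', c1, c2⟩ := H.ha c (by omega) x l'
        refine ⟨hc', ?_, ?_⟩
        · rw [key c hc x (by omega), ← Category.assoc, c1]
        · rw [key c hc x (by omega), C.ofShape_comp, C.seq_assoc, r1, c2]
      · rw [C.ofShape_comp, C.seq_assoc, r2, ← C.seq_assoc, h2 _ _ _ _ l']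

end RP

theorem rep (hf : Fill C) (e : C.UnitChoice) (hs : SkelStmt C) : RepStmt C := by
  intro S k j _ x y hxy
  obtain ⟨U, h1, h2⟩ := RP.units e j
  obtain ⟨S', ι, ρ, H⟩ := RP.tr h1 h2 S
  have key : ∀ f : C.arr (D j) S, C.seq (C.seq f ρ) (C.ofShape ι) = f := fun f => by
    have := hs j (freeOn C S) (D j) S f (fr (C.seq ρ (C.ofShape ι))) (fr (C.one S))
      (fun m hm u => by rw [act_fr, act_fr, C.seq_one, ← C.seq_assoc, H.low m hm]) j le_rfl (𝟙 _)
    rwa [act_id, act_id, act_fr, act_fr, C.seq_one, ← C.seq_assoc, fr_inj] at this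
  obtain ⟨z, z1, z2⟩ := hf j S' H.dim (C.seq (unfr x) ρ) (C.seq (unfr y) ρ) (by
    cases j with
    | zero => trivial
    | succ j =>
      refine ⟨?_, ?_⟩ <;> rw [← C.seq_assoc, ← C.seq_assoc]
      · exact congrArg (fun t => C.seq (unfr t) ρ) hxy.1
      · exact congrArg (fun t => C.seq (unfr t) ρ) hxy.2)
  refine ⟨fr (C.seq z (C.ofShape ι)), ?_, ?_⟩
  · show (freeOn C S).act _ _ = _
    rw [act_fr, ← C.seq_assoc, z1, key, fr_unfr]
  · show (freeOn C S).act _ _ = _
    rw [act_fr, ← C.seq_assoc, z2, key, fr_unfr]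

end Crest.Agent.R248
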