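import Crest.Agent.R248.StepA

/-! Row 248: one more level of cylinders. -/

namespace Crest.Agent.R248
open CategoryTheory CategoryTheory.Limits Opposite
open Crest.GeometryTopology.Coherator Crest.GeometryTopology.Coherator.GlobTheory
open Crest.GeometryTopology.Coherator.GlobTheory.GlobModel
universe u

variable {C : GlobTheory.{u}}
open _root_.Crest.Agent.R248.ST

theorem step (e : C.UnitChoice) (hf : FreeStmt C) (hc : CofStmt C) : StepStmt C := by
  intro n k l Sy hn hk T hT hcon
  choose K i P hJ using fun S : Shape => hf l (D l ⟶ S) (Sy.K S) fun u => T _ ((Sy.univ S).app l u)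
  have hb : ∀ (Y : C.GlobModel) (j : ℕ) (h : j + 1 = l) (x : Cell Sy T Y (j + 1)),
      (gs Y).AreParallel (j + 1) (bt Sy T Y (j + 1) x) (bt Sy T Y (j + 1) x) →
      bt Sy T Y j ((G Sy T Y).src j x) = (gs Y).src j (bt Sy T Y (j + 1) x) ∧
      bt Sy T Y j ((G Sy T Y).tgt j x) = (gs Y).tgt j (bt Sy T Y (j + 1) x) := by
    intro Y j h x _
    subst h
    rw [bt_self, bt_ne (by omega), bt_ne (by omega), ← (gs Y).src_src, ← (gs Y).tgt_tgt, x.h,
      Pt.ch_id]
    have h1 := hT.bd Y j (Nat.lt_succ_self j) (Shape.σ j) x.c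
    have h2 := hT.bd Y j (Nat.lt_succ_self j) (Shape.τ j) x.c
    rw [← Category.comp_id (Shape.σ j), Pt.app_src, Pt.ch_id, Category.comp_id] at h1
    rw [← Category.comp_id (Shape.τ j), Pt.app_tgt, Pt.ch_id, Category.comp_id] at h2
    exact ⟨h1.symm, h2.symm⟩
  exact ⟨
  { G := G Sy T
    map := mp hT
    map_id := fun Y j c => Cell.ext (Sy.map_id Y j c.c) rfl
    map_comp := fun f g j c => Cell.ext (Sy.map_comp f g j c.c) rfl
    top := fun Y => ⟨fun j x => (Sy.top Y).app j x.c, fun j x => (Sy.top Y).app_src j x.c,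
      fun j x => (Sy.top Y).app_tgt j x.c⟩
    top_map := fun f j c => Sy.top_map f j c.c
    bot := bt Sy T
    bot_map := fun f j c => by
      by_cases hj : j = l
      · subst hj
        rw [bt_self, bt_self]
        exact (ap_act f _ _).symm
      · rw [bt_ne hj, bt_ne hj]
        exact Sy.bot_map f j c.c
    bot_src := fun Y j hj c => by
      by_cases h : j + 1 = l
      · exact (hb Y j h c ⟨rfl, rfl⟩).1
      · rw [bt_ne h, bt_ne (by omega)]
        exact Sy.bot_src Y j (by omega) c.c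
    bot_tgt := fun Y j hj c => by
      by_cases h : j + 1 = l
      · exact (hb Y j h c ⟨rfl, rfl⟩).2
      · rw [bt_ne h, bt_ne (by omega)]
        exact Sy.bot_tgt Y j (by omega) c.c
    bot_low := fun Y j hj c => by
      rw [bt_ne (by omega)]
      exact Sy.bot_low Y j hj c.c
    triv := fun Y => (triv_pr e Y).comp (Sy.triv Y) fun _ _ => rfl
    fill0 := fun h0 _ Y hY x y => by
      rcases Nat.eq_zero_or_pos l with rfl | hl
      · obtain ⟨c, hc⟩ := (Sy.triv Y).zero x
        obtain ⟨γ, g1, g2⟩ := hY 0 hk (T Y c) y trivial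
        exact ⟨mid c γ g1, hc, (bt_self _).trans g2⟩
      · obtain ⟨c, c1, c2⟩ := Sy.fill0 h0 hl Y hY x y
        exact ⟨low hl c, c1, (bt_ne (by omega) _).trans c2⟩
    fill := fun j h1 h2 Y hY a b hp x y x1 x2 y1 y2 => by
      rw [bt_ne (by omega)] at y1 y2
      have hp' := map_par (pr Sy T Y) hp
      rcases (Nat.le_of_lt_succ h2).eq_or_lt with rfl | hl
      · obtain ⟨c, c1, c2, c3⟩ := (Sy.triv Y).succ j _ _ hp' x x1 x2
        have t1 := hT.bd Y j (Nat.lt_succ_self j) (Shape.σ j) c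
        have t2 := hT.bd Y j (Nat.lt_succ_self j) (Shape.τ j) c
        rw [← Category.comp_id (Shape.σ j), Pt.app_src, Pt.ch_id, Category.comp_id, c1] at t1
        rw [← Category.comp_id (Shape.τ j), Pt.app_tgt, Pt.ch_id, Category.comp_id, c2] at t2
        obtain ⟨γ, g1, g2⟩ := hY _ hk (T Y c) y ⟨t1.trans y1.symm, t2.trans y2.symm⟩
        exact ⟨mid c γ g1, low_ext (by omega) c1, low_ext (by omega) c2, c3, (bt_self _).trans g2⟩
      · obtain ⟨c, c1, c2, c3, c4⟩ := Sy.fill j h1 hl Y hY _ _ hp' x y x1 x2 y1 y2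
        exact ⟨low hl c, low_ext (by omega) c1, low_ext (by omega) c2, c3,
          (bt_ne (by omega) _).trans c4⟩
    K := K
    univ := fun S => mkPt ((Sy.univ S).push (Sy.map (i S))) (P S) fun u => by
      rw [(hJ S).src, Pt.push_app, hT.nat]
    rep := fun S Y p => by
      have e2 : ∀ (m : ℕ) (u : D m ⟶ S), (Sy.map (Sy.cls (p.push (pr Sy T Y)))).app m
          ((Sy.univ S).app m u) = (p.app m u).c := fun m u =>
        congrArg (fun r : Pt (Sy.G Y) S => r.app m u) (Sy.cls_spec (p.push (pr Sy T Y)))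
      obtain ⟨h, ⟨h1, h2⟩, hu⟩ := (hJ S).univ Y (Sy.cls (p.push (pr Sy T Y)))
        (fun u => (p.app l u).γ (𝟙 _)) fun u => by
          rw [(p.app l u).h, Pt.ch_id, ← hT.nat, e2]
      refine ⟨h, ?_, fun f hf => hu f ⟨(Sy.cls_uniq ?_).symm, fun u => ?_⟩⟩
      · refine Pt.ext (funext fun j => funext fun w => Cell.ext ?_ (funext fun u => ?_))
        · exact (Sy.map_comp _ _ _ _).symm.trans (by rw [h1]; exact e2 j w)
        · exact (h2 _).trans (pt_γ p w u).symm
      · rw [← hf, ← Sy.push_push]; rfl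
      · rw [← hf]
        exact congrArg (fun v => ap f (P S v)) (Category.id_comp u).symm
    cof := fun S => hc.2.1 _ _ _ _ _ _ _ (hJ S) (Sy.cof S)
    contr := fun S => hcon S _ _ _ (hJ S) }⟩

end Crest.Agent.R248
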