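import Crest.Agent.R248.PathA

/-! Row 248: one more level of cylinders (globular part). -/

namespace Crest.Agent.R248
open CategoryTheory CategoryTheory.Limits Opposite
open Crest.GeometryTopology.Coherator Crest.GeometryTopology.Coherator.GlobTheory
open Crest.GeometryTopology.Coherator.GlobTheory.GlobModel
universe u

variable {C : GlobTheory.{u}} {n k l : ℕ} (Sy : Sys C n k l)
  (T : ∀ Y : C.GlobModel, (Sy.G Y).cell l → El Y (D l))

namespace ST

/-- new cells -/
@[ext] structure Cell (Y : C.GlobModel) (j : ℕ) : Type u where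
  c : (Sy.G Y).cell j
  γ : (D l ⟶ D j) → El Y (D (l + 1))
  h : ∀ u, (gs Y).src l (γ u) = T Y ((Pt.ch c).app l u)

/-- new globular set -/
@[reducible] noncomputable def G (Y : C.GlobModel) : GlobSet.{u} where
  cell j := Cell Sy T Y j
  src j x := ⟨(Sy.G Y).src j x.c, fun u => x.γ (u ≫ Shape.σ j), fun u => by
    rw [x.h, Pt.ch_src, Pt.pull_app]⟩
  tgt j x := ⟨(Sy.G Y).tgt j x.c, fun u => x.γ (u ≫ Shape.τ j), fun u => by
    rw [x.h, Pt.ch_tgt, Pt.pull_app]⟩
  src_src j x := Cell.ext ((Sy.G Y).src_src j x.c) (by simp only [Category.assoc, σ_σ])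
  tgt_tgt j x := Cell.ext ((Sy.G Y).tgt_tgt j x.c) (by simp only [Category.assoc, τ_σ])

/-- projection -/
noncomputable def pr (Y : C.GlobModel) : (G Sy T Y).Map (Sy.G Y) :=
  ⟨fun _ x => x.c, fun _ _ => rfl, fun _ _ => rfl⟩

variable {Sy T}

/-- functoriality -/
noncomputable def mp (hT : Sy.IsT T) {Y Z : C.GlobModel} (f : Y ⟶ Z) :
    (G Sy T Y).Map (G Sy T Z) where
  app j x := ⟨(Sy.map f).app j x.c, fun u => ap f (x.γ u), fun u => by
    rw [Pt.ch_map, Pt.push_app, hT.nat, ← x.h]; exact (ap_act f _ _).symm⟩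
  app_src j x := Cell.ext ((Sy.map f).app_src j x.c) rfl
  app_tgt j x := Cell.ext ((Sy.map f).app_tgt j x.c) rfl

/-- a cell below dimension `l` -/
def low {Y : C.GlobModel} {j : ℕ} (hj : j < l) (c : (Sy.G Y).cell j) : Cell Sy T Y j :=
  ⟨c, fun u => absurd (globe_le u) (by omega), fun u => absurd (globe_le u) (by omega)⟩

theorem low_ext {Y : C.GlobModel} {j : ℕ} (hj : j < l) {x y : Cell Sy T Y j} (h : x.c = y.c) :
    x = y := Cell.ext h (funext fun u => absurd (globe_le u) (by omega))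

/-- a cell of dimension `l` -/
def mid {Y : C.GlobModel} (c : (Sy.G Y).cell l) (γ : El Y (D (l + 1)))
    (h : (gs Y).src l γ = T Y c) : Cell Sy T Y l :=
  ⟨c, fun _ => γ, fun u => by rw [globe_endo u, Pt.ch_id, h]⟩

/-- points of the new globular set -/
noncomputable def mkPt {Y : C.GlobModel} {S : Shape} (p : Pt (Sy.G Y) S)
    (δ : (D l ⟶ S) → El Y (D (l + 1))) (h : ∀ u, (gs Y).src l (δ u) = T Y (p.app l u)) :
    Pt (G Sy T Y) S where
  app j w := ⟨p.app j w, fun u => δ (u ≫ w), fun u => by rw [h, Pt.ch_app, Pt.pull_app]⟩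
  app_src j w := Cell.ext (p.app_src j w) (by simp only [Category.assoc])
  app_tgt j w := Cell.ext (p.app_tgt j w) (by simp only [Category.assoc])

theorem pt_γ {Y : C.GlobModel} {S : Shape} (p : Pt (G Sy T Y) S) {j : ℕ} (w : D j ⟶ S)
    (u : D l ⟶ D j) : (p.app j w).γ u = (p.app l (u ≫ w)).γ (𝟙 _) := by
  have : p.pull w = mkPt (Pt.ch (p.app j w).c) (p.app j w).γ (p.app j w).h :=
    Pt.globe_ext (Cell.ext (by simp [mkPt]) (by simp [mkPt]))
  have h2 := congrArg (fun r : Pt (G Sy T Y) (D j) => (r.app l u).γ (𝟙 _)) this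
  simpa [mkPt] using h2.symm

theorem ex_γ {A : Type u} {j : ℕ} (hj : l ≤ j) (a b : (D l ⟶ D j) → A)
    (h : ∀ hl : l < j, ∀ x, a (Shape.faceMap hl x) = b (Shape.faceMap hl x)) :
    ∃ γ : (D l ⟶ D (j + 1)) → A, (∀ v, γ (v ≫ Shape.σ j) = a v) ∧ ∀ v, γ (v ≫ Shape.τ j) = b v := by
  have key : ∀ w : D l ⟶ D (j + 1), ∃ val : A, (∀ v, w = v ≫ Shape.σ j → val = a v) ∧
      ∀ v, w = v ≫ Shape.τ j → val = b v := by
    intro w
    have lt := Nat.lt_succ_of_le hj
    obtain ⟨x, rfl⟩ := globe_lt lt w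
    rcases hj.eq_or_lt with rfl | l'
    · cases x
      · refine ⟨a (𝟙 _), fun v _ => by rw [globe_endo v], fun v hv => ?_⟩
        rw [globe_endo v, Category.id_comp] at hv
        exact absurd hv (face_ne lt)
      · refine ⟨b (𝟙 _), fun v hv => ?_, fun v _ => by rw [globe_endo v]⟩
        rw [globe_endo v, Category.id_comp] at hv
        exact absurd hv.symm (face_ne lt)
    · refine ⟨a (Shape.faceMap l' x), fun v hv => ?_, fun v hv => ?_⟩
      · obtain ⟨y, rfl⟩ := globe_lt l' v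
        rw [σ_eq, face_face] at hv
        rw [Pt.face_inj lt hv]
      · obtain ⟨y, rfl⟩ := globe_lt l' v
        rw [τ_eq, face_face] at hv
        rw [Pt.face_inj lt hv]
        exact h l' y
  choose γ h1 h2 using key
  exact ⟨γ, fun v => h1 _ v rfl, fun v => h2 _ v rfl⟩

theorem triv_pr (e : C.UnitChoice) (Y : C.GlobModel) : TrivFib (pr Sy T Y) := by
  constructor
  · intro w
    rcases Nat.eq_zero_or_pos l with rfl | hl
    · exact ⟨mid w _ (src_unit e Y _ _), rfl⟩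
    · exact ⟨low hl w, rfl⟩
  · intro j a b hp w h1 h2
    rcases lt_trichotomy (j + 1) l with hl | rfl | hl
    · exact ⟨low hl w, low_ext (by omega) h1, low_ext (by omega) h2, rfl⟩
    · exact ⟨mid w _ (src_unit e Y _ _), low_ext (by omega) h1, low_ext (by omega) h2, rfl⟩
    · obtain ⟨γ, g1, g2⟩ := ex_γ (Nat.le_of_lt_succ hl) a.γ b.γ fun hl' x => by
        obtain ⟨j, rfl⟩ : ∃ i, j = i + 1 := ⟨j - 1, by omega⟩
        rcases globe_succ (Nat.le_of_lt_succ hl') (Shape.faceMap hl' x) with ⟨v, hv⟩ | ⟨v, hv⟩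
        · rw [hv]; exact congrFun (congrArg Cell.γ hp.1) v
        · rw [hv]; exact congrFun (congrArg Cell.γ hp.2) v
      refine ⟨⟨w, γ, fun u => ?_⟩, Cell.ext h1 (funext g1), Cell.ext h2 (funext g2), rfl⟩
      rcases globe_succ (Nat.le_of_lt_succ hl) u with ⟨v, rfl⟩ | ⟨v, rfl⟩
      · rw [g1, a.h, ← Pt.pull_app, ← Pt.ch_src, h1]; rfl
      · rw [g2, b.h, ← Pt.pull_app, ← Pt.ch_tgt, h2]; rfl

variable (Sy T) in
/-- new bottom -/
noncomputable def bt (Y : C.GlobModel) : ∀ j : ℕ, Cell Sy T Y j → El Y (D j) :=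
  Function.update (fun j x => Sy.bot Y j x.c) l fun x => (gs Y).tgt l (x.γ (𝟙 _))

theorem bt_self {Y : C.GlobModel} (x : Cell Sy T Y l) :
    bt Sy T Y l x = (gs Y).tgt l (x.γ (𝟙 _)) := by rw [bt, Function.update_self]
theorem bt_ne {Y : C.GlobModel} {j : ℕ} (hj : j ≠ l) (x : Cell Sy T Y j) :
    bt Sy T Y j x = Sy.bot Y j x.c := by rw [bt, Function.update_of_ne hj]

end ST

theorem TrivFib.comp {A B E : GlobSet.{u}} {f : A.Map B} {g : B.Map E} (hf : TrivFib f)
    (hg : TrivFib g) {h : A.Map E} (e : ∀ j x, h.app j x = g.app j (f.app j x)) : TrivFib h := by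
  constructor
  · intro w
    obtain ⟨y, rfl⟩ := hg.zero w
    obtain ⟨x, rfl⟩ := hf.zero y
    exact ⟨x, e _ _⟩
  · intro j a b hp w h1 h2
    obtain ⟨y, y1, y2, rfl⟩ := hg.succ j _ _ (map_par f hp) w (h1.trans (e _ _)) (h2.trans (e _ _))
    obtain ⟨x, x1, x2, rfl⟩ := hf.succ j a b hp y y1 y2
    exact ⟨x, x1, x2, e _ _⟩

end Crest.Agent.R248
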