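import Crest.Agent.R248.Defs

/-! Row 248: induction along the defining tower. -/

namespace Crest.Agent.R248
open CategoryTheory CategoryTheory.Limits Opposite
open Crest.GeometryTopology.Coherator Crest.GeometryTopology.Coherator.GlobTheory
open Crest.GeometryTopology.Coherator.GlobTheory.GlobModel
universe u

variable {C : GlobTheory.{u}}

theorem tm_par {A B : GlobTheory.{u}} (F : TheoryMap A B) {S : Shape} {j : ℕ}
    {f g : A.arr (D j) S} (h : A.OpsParallel j f g) : B.OpsParallel j (F.map f) (F.map g) := by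
  cases j with
  | zero => trivial
  | succ j =>
    exact ⟨by rw [← F.map_ofShape, ← F.map_seq, ← F.map_seq, h.1],
      by rw [← F.map_ofShape, ← F.map_seq, ← F.map_seq, h.2]⟩

theorem tm_congr {A B : GlobTheory.{u}} {F G : TheoryMap A B} (h : F = G) {S T : Shape}
    (f : A.arr S T) : F.map f = G.map f := by rw [h]

theorem tower (hC : Nonempty C.Tower) : TowerStmt C := by
  obtain ⟨T⟩ := hC
  intro E π hE
  have h0 : ∃ G : TheoryMap (T.stage 0) E, G.comp π = T.toEnd 0 := by
    obtain ⟨u⟩ := T.stage_zero E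
    obtain ⟨v⟩ := T.stage_zero C
    exact ⟨u.default, (v.uniq _).trans (v.uniq _).symm⟩
  have hs : ∀ (r : ℕ) (G : TheoryMap (T.stage r) E), G.comp π = T.toEnd r →
      ∃ G' : TheoryMap (T.stage (r + 1)) E, G'.comp π = T.toEnd (r + 1) ∧
        (T.next r).comp G' = G := by
    intro r G hG
    have hz : ∀ i, IsFillerAlong (T.toEnd r) (T.prob r i) ((T.toEnd (r + 1)).map (T.fill r i)) := by
      intro i
      obtain ⟨h1, h2⟩ := (T.free r).1 i
      constructor
      · rw [← (T.toEnd (r + 1)).map_ofShape, ← TheoryMap.map_seq, h1]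
        exact tm_congr (T.toEnd_comm r) _
      · rw [← (T.toEnd (r + 1)).map_ofShape, ← TheoryMap.map_seq, h2]
        exact tm_congr (T.toEnd_comm r) _
    choose w hw1 hw2 hw3 using fun i => hE _ _ (T.prob r i).dim_le (G.map (T.prob r i).lower)
      (G.map (T.prob r i).upper) (tm_par G (T.prob r i).parallel) _
      ((hz i).1.trans (tm_congr hG _).symm) ((hz i).2.trans (tm_congr hG _).symm)
    obtain ⟨G', ⟨h1, h2⟩, -⟩ := (T.free r).2 E G w fun i => ⟨hw1 i, hw2 i⟩
    refine ⟨G', ?_, h1⟩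
    obtain ⟨H, -, hH⟩ := (T.free r).2 C (T.toEnd r) _ hz
    refine (hH _ ⟨?_, fun i => ?_⟩).trans (hH _ ⟨T.toEnd_comm r, fun _ => rfl⟩).symm
    · rw [← hG, ← h1]; rfl
    · change π.map (G'.map _) = _
      rw [h2, hw3]
  choose nx hn1 hn2 using hs
  let G : ∀ r, {G : TheoryMap (T.stage r) E // G.comp π = T.toEnd r} := fun r =>
    Nat.rec ⟨h0.choose, h0.choose_spec⟩ (fun r G => ⟨nx r G.1 G.2, hn1 r G.1 G.2⟩) r
  obtain ⟨s, hs, -⟩ := T.colim E (fun r => (G r).1) fun r => hn2 r (G r).1 (G r).2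
  obtain ⟨H, -, hH⟩ := T.colim C T.toEnd T.toEnd_comm
  have : s.comp π = TheoryMap.id C := by
    refine (hH _ fun r => ?_).trans (hH _ fun r => rfl).symm
    exact (congrArg (fun F => TheoryMap.comp F π) (hs r)).trans (G r).2
  exact ⟨s, fun S T φ => tm_congr this φ⟩

/-- a pre-theory respects sums when maps out of glued shapes exist uniquely -/
theorem respects_of (E : PreTheory.{u})
    (ex : ∀ (S : Shape) (b h : ℕ) (hb : b < S.last) (hh : b < h) (T : Shape) (f : E.arr S T)
      (g : E.arr (D h) T),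
      E.seq (E.ofShape (S.hinge hb)) f = E.seq (E.ofShape (Shape.faceMap hh false)) g →
      ∃ k : E.arr (S.glue b h hb hh) T, E.seq (E.ofShape (S.inLeft b h hb hh)) k = f ∧
        E.seq (E.ofShape (S.inRight b h hb hh)) k = g)
    (un : ∀ (S : Shape) (b h : ℕ) (hb : b < S.last) (hh : b < h) (T : Shape)
      (k k' : E.arr (S.glue b h hb hh) T),
      E.seq (E.ofShape (S.inLeft b h hb hh)) k = E.seq (E.ofShape (S.inLeft b h hb hh)) k' →
      E.seq (E.ofShape (S.inRight b h hb hh)) k = E.seq (E.ofShape (S.inRight b h hb hh)) k' →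
      k = k') : E.RespectsSums := by
  intro S b h hb hh
  have w : E.incl.map (S.hinge hb) ≫ E.incl.map (S.inLeft b h hb hh) =
      E.incl.map (Shape.faceMap hh false) ≫ E.incl.map (S.inRight b h hb hh) := by
    rw [← Functor.map_comp, ← Functor.map_comp, glue_w]
  refine ⟨⟨w⟩, ⟨PushoutCocone.IsColimit.mk w
    (fun s => (ex S b h hb hh s.pt.shape s.inl s.inr s.condition).choose)
    (fun s => (ex S b h hb hh s.pt.shape s.inl s.inr s.condition).choose_spec.1)
    (fun s => (ex S b h hb hh s.pt.shape s.inl s.inr s.condition).choose_spec.2)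
    (fun s m h1 h2 => un S b h hb hh s.pt.shape _ _
      (h1.trans (ex S b h hb hh s.pt.shape s.inl s.inr s.condition).choose_spec.1.symm)
      (h2.trans (ex S b h hb hh s.pt.shape s.inl s.inr s.condition).choose_spec.2.symm))⟩⟩

theorem arr_glue (C : GlobTheory.{u}) (S : Shape) (b h : ℕ) (hb : b < S.last) (hh : b < h)
    (T : Shape) (f : C.arr S T) (g : C.arr (D h) T)
    (w : C.seq (C.ofShape (S.hinge hb)) f = C.seq (C.ofShape (Shape.faceMap hh false)) g) :
    ∃ k : C.arr (S.glue b h hb hh) T, C.seq (C.ofShape (S.inLeft b h hb hh)) k = f ∧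
      C.seq (C.ofShape (S.inRight b h hb hh)) k = g :=
  el_glue (freeOn C T) S b h hb hh (fr f) (fr g) w

theorem arr_glue_ext (C : GlobTheory.{u}) (S : Shape) (b h : ℕ) (hb : b < S.last) (hh : b < h)
    (T : Shape) (k k' : C.arr (S.glue b h hb hh) T)
    (h1 : C.seq (C.ofShape (S.inLeft b h hb hh)) k = C.seq (C.ofShape (S.inLeft b h hb hh)) k')
    (h2 : C.seq (C.ofShape (S.inRight b h hb hh)) k = C.seq (C.ofShape (S.inRight b h hb hh)) k') :
    k = k' :=
  el_glue_ext (freeOn C T) S b h hb hh (z := fr k) (z' := fr k') h1 h2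

theorem sub (h : TowerStmt C) : SubStmt C := by
  intro Q h1 h2 h3 h4
  let E₀ : PreTheory.{u} :=
    { arr := fun S T => {φ : C.arr S T // Q φ}
      one := fun S => ⟨C.one S, C.ofShape_id S ▸ h1 S S (𝟙 S)⟩
      seq := fun f g => ⟨C.seq f.1 g.1, h2 _ _ _ _ _ f.2 g.2⟩
      one_seq := fun f => Subtype.ext (C.one_seq _)
      seq_one := fun f => Subtype.ext (C.seq_one _)
      seq_assoc := fun f g h => Subtype.ext (C.seq_assoc _ _ _)
      ofShape := fun f => ⟨C.ofShape f, h1 _ _ f⟩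
      ofShape_id := fun S => Subtype.ext (C.ofShape_id S)
      ofShape_comp := fun f g => Subtype.ext (C.ofShape_comp f g) }
  let E : GlobTheory.{u} := ⟨E₀, respects_of E₀ (fun S b h hb hh T f g w => by
      obtain ⟨k, k1, k2⟩ := arr_glue C S b h hb hh T f.1 g.1 (congrArg Subtype.val w)
      exact ⟨⟨k, h3 S b h hb hh T k (k1 ▸ f.2) (k2 ▸ g.2)⟩, Subtype.ext k1, Subtype.ext k2⟩)
    (fun S b h hb hh T k k' k1 k2 => Subtype.ext
      (arr_glue_ext C S b h hb hh T k.1 k'.1 (congrArg Subtype.val k1) (congrArg Subtype.val k2)))⟩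
  let π : TheoryMap E C := ⟨fun f => f.1, fun _ => rfl, fun _ _ => rfl, fun _ => rfl⟩
  obtain ⟨s, hs⟩ := h E π (fun j S hd f g _ z hf hg =>
    ⟨⟨z, h4 j S hd z (hf ▸ f.2) (hg ▸ g.2)⟩, Subtype.ext hf, Subtype.ext hg, rfl⟩)
  intro S T φ
  exact hs S T φ ▸ (s.map φ).2

theorem skel (h : SubStmt C) : SkelStmt C := by
  intro j Y S T φ
  refine h (fun {S T} φ => ∀ p q : El Y T,
    (∀ m ≤ j, ∀ u : D m ⟶ T, Y.act (C.ofShape u) p = Y.act (C.ofShape u) q) →
    ∀ m ≤ j, ∀ u : D m ⟶ S,
      Y.act (C.ofShape u) (Y.act φ p) = Y.act (C.ofShape u) (Y.act φ q)) ?_ ?_ ?_ ?_ S T φ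
  · intro S T f p q hpq m hm u
    rw [← act_comp, ← act_comp]
    exact hpq m hm _
  · intro R S T f g hf hg p q hpq
    simp only [act_seq]
    exact hf _ _ (hg p q hpq)
  · intro S b h hb hh T φ k1 k2 p q hpq m hm u
    rcases glue_cells S b h hb hh u with ⟨v, rfl⟩ | ⟨v, rfl⟩
    · simpa only [act_seq, act_comp] using k1 p q hpq m hm v
    · simpa only [act_seq, act_comp] using k2 p q hpq m hm v
  · intro i S hd z k1 k2 p q hpq m hm u
    rcases (globe_le u).eq_or_lt with rfl | l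
    · rw [el_ext Y fun m' v => hpq m' (((cell_le_dim v).trans hd).trans hm) v]
    · rcases globe_succ (Nat.le_of_lt_succ l) u with ⟨v, rfl⟩ | ⟨v, rfl⟩
      · simpa only [act_seq, act_comp] using k1 p q hpq m hm v
      · simpa only [act_seq, act_comp] using k2 p q hpq m hm v

end Crest.Agent.R248
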